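import Vale.Agent.P096.Full.Key.FockWords

/-!
P096, KEY/Fock: the truncated Fock space seen by coordinates, and the coefficients of the
commutator of two polynomials at the vacuum.
-/

open scoped InnerProductSpace

namespace Vale.Agent.P096.Full.Key.Fock

open Finset FockWords Polynomial

universe u

variable {K : Type u} [NormedAddCommGroup K] [InnerProductSpace ℂ K] [CompleteSpace K]
  {L : Type u} [Fintype L] [Nonempty L] {T : ℕ}

/-- A list as a word. -/
def toWord (s : List L) (h : s.length < T + 1) : Word L T := ⟨⟨s.length, h⟩, fun i => s.get i⟩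

omit [Fintype L] [Nonempty L] in
theorem word_ext {w w' : Word L T} (h : List.ofFn w.2 = List.ofFn w'.2) : w = w' := by
  obtain ⟨⟨n, hn⟩, f⟩ := w
  obtain ⟨⟨m, hm⟩, g⟩ := w'
  have := List.ofFn_inj'.1 h
  cases this
  rfl

omit [Fintype L] [Nonempty L] in
theorem ofFn_toWord (s : List L) (h : s.length < T + 1) : List.ofFn (toWord s h).2 = s :=
  List.ofFn_get s

omit [Fintype L] [Nonempty L] in
theorem toWord_ofFn (w : Word L T) (h : (List.ofFn w.2).length < T + 1) :
    toWord (List.ofFn w.2) h = w :=
  word_ext (ofFn_toWord _ _)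

/-- The coordinates along a relabelling of lists, zero beyond the truncation. -/
noncomputable def ev (σ : List L → List L) : Fock K L T →ₗ[ℂ] (List L → K) where
  toFun f s := if h : (σ s).length < T + 1 then f (toWord (σ s) h) else 0
  map_add' f g := by
    funext s
    simp only [Pi.add_apply]
    split_ifs <;> simp
  map_smul' c f := by
    funext s
    simp only [Pi.smul_apply, RingHom.id_apply]
    split_ifs <;> simp

omit [CompleteSpace K] [Nonempty L] in
theorem ev_of_lt (σ : List L → List L) (f : Fock K L T) {s : List L} (h : (σ s).length < T + 1) :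
    ev σ f s = f (toWord (σ s) h) := dif_pos h

omit [CompleteSpace K] [Nonempty L] in
theorem ev_of_not_lt (σ : List L → List L) (f : Fock K L T) {s : List L}
    (h : ¬ (σ s).length < T + 1) : ev σ f s = 0 := dif_neg h

omit [CompleteSpace K] [Nonempty L] in
theorem ev_word {σ : List L → List L} (hσ : ∀ s, σ (σ s) = s) (f : Fock K L T) (w : Word L T) :
    ev σ f (σ (List.ofFn w.2)) = f w := by
  have h : (σ (σ (List.ofFn w.2))).length < T + 1 := by
    rw [hσ, List.length_ofFn]; exact w.1.2
  rw [ev_of_lt σ f h]
  exact congrArg f.ofLp (word_ext ((ofFn_toWord _ h).trans (hσ _)))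

/-- An operator that creates one letter in the coordinates given by `σ`. -/
structure Creates (σ : List L → List L) (a : L → (K →L[ℂ] K)) (C : Fock K L T →L[ℂ] Fock K L T) :
    Prop where
  invol : ∀ s, σ (σ s) = s
  len : ∀ s, (σ s).length = s.length
  act : ∀ (g : Fock K L T) (u : List L),
    ev σ (C g) u = if u.length ≤ T then cre a (ev σ g) u else 0

omit [Nonempty L] in
theorem Creates.star_act {σ : List L → List L} {a : L → (K →L[ℂ] K)}
    {C : Fock K L T →L[ℂ] Fock K L T} (hC : Creates σ a C) (f : Fock K L T) :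
    ev σ (star C f) = ann a (ev σ f) := by
  classical
  funext s
  by_cases hs : (σ s).length < T + 1
  swap
  · rw [ev_of_not_lt σ _ hs, ann, sum_eq_zero, smul_zero]
    intro x _
    rw [ev_of_not_lt σ f, map_zero]
    simp only [hC.len, List.length_cons] at hs ⊢
    omega
  rw [ev_of_lt σ _ hs]
  refine ext_inner_left ℂ fun k => ?_
  let g : Fock K L T := WithLp.toLp 2 (Pi.single (toWord (σ s) hs) k)
  have h1 : ⟪k, (star C f) (toWord (σ s) hs)⟫_ℂ = ⟪C g, f⟫_ℂ := by
    rw [← ContinuousLinearMap.adjoint_inner_right, ← ContinuousLinearMap.star_eq_adjoint,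
      PiLp.inner_apply, sum_eq_single_of_mem (toWord (σ s) hs) (mem_univ _)]
    · simp [g]
    · intro w _ hw
      simp [g, hw]
  have hg : ∀ t : List L, ev σ g t = if t = s then k else 0 := by
    intro t
    by_cases ht : (σ t).length < T + 1
    · rw [ev_of_lt σ g ht]
      by_cases hts : t = s
      · subst hts
        simp [g]
      · rw [if_neg hts]
        have : toWord (σ t) ht ≠ toWord (σ s) hs := fun he => hts <| by
          have e := congrArg (fun w : Word L T => σ (List.ofFn w.2)) he
          simpa only [ofFn_toWord, hC.invol] using e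
        simp [g, this]
    · rw [ev_of_not_lt σ g ht, if_neg]
      rintro rfl
      exact ht hs
  have hCg : ∀ w : Word L T, (C g) w = cre a (ev σ g) (σ (List.ofFn w.2)) := fun w => by
    rw [← ev_word hC.invol (C g) w, hC.act, if_pos]
    rw [hC.len, List.length_ofFn]
    exact Nat.lt_succ_iff.1 w.1.2
  rw [h1, PiLp.inner_apply, ann, inner_smul_right, inner_sum, mul_sum]
  rw [hC.len] at hs
  by_cases hT : s.length < T
  · have hx : ∀ x, (σ (x :: s)).length < T + 1 := fun x => by
      rw [hC.len, List.length_cons]; omega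
    refine (Fintype.sum_of_injective (fun x => toWord (σ (x :: s)) (hx x)) ?_ _ _ ?_ ?_).symm
    · intro x y h
      have e := congrArg (fun w : Word L T => σ (List.ofFn w.2)) h
      simp only [ofFn_toWord, hC.invol] at e
      exact (List.cons.inj e).1
    · intro w hw
      rw [hCg]
      rcases hu : σ (List.ofFn w.2) with - | ⟨x, t⟩
      · simp [cre]
      · rw [cre, hg]
        by_cases hts : t = s
        · refine absurd ⟨x, word_ext ?_⟩ hw
          rw [ofFn_toWord, ← hts, ← hu, hC.invol]
        · simp [hts]
    · intro x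
      rw [ev_of_lt σ f (hx x), hCg, ofFn_toWord, hC.invol, cre, hg, if_pos rfl, inner_smul_left,
        show starRingEnd ℂ (kc L) = kc L from Complex.conj_ofReal _,
        ContinuousLinearMap.star_eq_adjoint, ContinuousLinearMap.adjoint_inner_right]
  · rw [sum_eq_zero, sum_eq_zero]
    · intro x _
      rw [ev_of_not_lt σ f, map_zero, inner_zero_right, mul_zero]
      simp only [hC.len, List.length_cons]
      omega
    · intro w _
      rw [hCg]
      rcases hu : σ (List.ofFn w.2) with - | ⟨x, t⟩
      · simp [cre]
      · have hl : (σ (List.ofFn w.2)).length = t.length + 1 := by rw [hu]; rfl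
        rw [hC.len, List.length_ofFn] at hl
        rw [cre, hg, if_neg fun ht => ?_]
        · simp
        · subst ht
          have := w.1.2
          omega

omit [CompleteSpace K] [Nonempty L] in
theorem creates_left (a : L → (K →L[ℂ] K)) : Creates (T := T) id a (createL a) := by
  refine ⟨fun _ => rfl, fun _ => rfl, fun g u => ?_⟩
  by_cases hu : u.length ≤ T
  · rw [if_pos hu, ev_of_lt id (createL a g) (Nat.lt_succ_of_le hu)]
    rcases u with - | ⟨x, t⟩
    · simp [createL, toWord, cre]
    · have ht : (id t).length < T + 1 := by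
        simp only [List.length_cons] at hu
        simp only [id_eq]
        omega
      rw [cre, ev_of_lt id g ht]
      simp [createL, toWord, kc]
      rfl
  · rw [if_neg hu, ev_of_not_lt]
    simp only [id_eq]
    omega

omit [CompleteSpace K] [Nonempty L] in
theorem creates_right (b : L → (K →L[ℂ] K)) : Creates (T := T) List.reverse b (createR b) := by
  refine ⟨List.reverse_reverse, fun _ => List.length_reverse, fun g u => ?_⟩
  by_cases hu : u.length ≤ T
  · have hu' : u.reverse.length < T + 1 := by rw [List.length_reverse]; omega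
    rw [if_pos hu, ev_of_lt _ (createR b g) hu']
    rcases u with - | ⟨x, t⟩
    · simp [createR, toWord, cre]
    · have ht : t.reverse.length < T + 1 := by
        simp only [List.length_cons] at hu
        rw [List.length_reverse]; omega
      rw [cre, ev_of_lt _ g ht]
      have hpos : 0 < ((toWord (x :: t).reverse hu').1 : ℕ) := by simp [toWord]
      simp only [createR, ContinuousLinearMap.comp_apply, ContinuousLinearEquiv.coe_coe,
        PiLp.continuousLinearEquiv_symm_apply, PiLp.toLp_apply, ContinuousLinearMap.pi_apply,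
        dif_pos hpos, smul_apply, PiLp.proj_apply, kc]
      congr 1
      refine congrArg₂ (fun (y : L) (z : K) => b y z) ?_ (congrArg g.ofLp (word_ext ?_))
      · simp [toWord]
      · rw [ofFn_toWord]
        refine List.ext_getElem (by simp [toWord]) fun i h₁ h₂ => ?_
        simp [toWord]
        exact (List.getElem_append_left h₂).trans (by simp)
  · rw [if_neg hu, ev_of_not_lt]
    rw [List.length_reverse]
    omega

omit [CompleteSpace K] [Nonempty L] in
theorem ev_vac {σ : List L → List L} (hlen : ∀ s, (σ s).length = s.length) (v : K) :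
    ev σ (vac L T v) = vacF v := by
  funext s
  by_cases h : (σ s).length < T + 1
  · rw [ev_of_lt σ _ h]
    rcases s with - | ⟨x, t⟩ <;> simp [vac, toWord, hlen, vacF]
  · rw [ev_of_not_lt σ _ h]
    rcases s with - | ⟨x, t⟩
    · simp [hlen] at h
    · rfl

/-- Vanishing beyond length `j`. -/
def Supp (j : ℕ) (F : List L → K) : Prop := ∀ s : List L, j < s.length → F s = 0

omit [Nonempty L] in
theorem supp_semi (a : L → (K →L[ℂ] K)) {j : ℕ} {F : List L → K} (hF : Supp j F) :
    Supp (j + 1) (semi a F) := by
  intro s hs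
  rcases s with - | ⟨x, t⟩
  · simp at hs
  · simp only [List.length_cons] at hs
    have h1 : cre a F (x :: t) = 0 := by rw [cre, hF t (by omega), map_zero, smul_zero]
    have h2 : ann a F (x :: t) = 0 := by
      rw [ann, sum_eq_zero, smul_zero]
      intro y _
      rw [hF _ (by simp only [List.length_cons]; omega), map_zero]
    show cre a F (x :: t) + ann a F (x :: t) = 0
    rw [h1, h2, add_zero]

variable {σ : List L → List L} {a : L → (K →L[ℂ] K)} {C : Fock K L T →L[ℂ] Fock K L T}

omit [Nonempty L] in
theorem Creates.semi_act (hC : Creates σ a C) {f : Fock K L T} {j : ℕ} (hf : Supp j (ev σ f))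
    (hj : j < T) : ev σ ((C + star C) f) = semi a (ev σ f) := by
  funext s
  rw [add_apply, map_add, Pi.add_apply, hC.act, hC.star_act]
  show _ = cre a (ev σ f) s + ann a (ev σ f) s
  by_cases hs : s.length ≤ T
  · rw [if_pos hs]
  · rw [if_neg hs]
    rcases s with - | ⟨x, t⟩
    · simp at hs
    · simp only [List.length_cons, not_le] at hs
      rw [cre, hf t (by omega), map_zero, smul_zero]

omit [Nonempty L] in
theorem Creates.cheb_act (hC : Creates σ a C) : ∀ (k : ℕ) (f : Fock K L T) (j : ℕ),
    Supp j (ev σ f) → j + k ≤ T →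
      ev σ (aeval (C + star C) ((cheb k).map (algebraMap ℝ ℂ)) f) = chebF a k (ev σ f) ∧
        Supp (j + k) (chebF a k (ev σ f))
  | 0, f, j, hf, _ => by simpa [cheb, chebF] using hf
  | 1, f, j, hf, hj => by
    simp only [cheb, chebF, Polynomial.map_X, aeval_X]
    exact ⟨hC.semi_act hf (by omega), supp_semi a hf⟩
  | k + 2, f, j, hf, hj => by
    obtain ⟨e1, s1⟩ := hC.cheb_act (k + 1) f j hf (by omega)
    obtain ⟨e0, s0⟩ := hC.cheb_act k f j hf (by omega)
    constructor
    · simp only [cheb, Polynomial.map_sub, Polynomial.map_mul, Polynomial.map_X, map_sub, map_mul,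
        aeval_X, sub_apply, ContinuousLinearMap.mul_def, ContinuousLinearMap.comp_apply, chebF,
        LinearMap.sub_apply, LinearMap.comp_apply]
      rw [hC.semi_act (f := aeval (C + star C) ((cheb (k + 1)).map (algebraMap ℝ ℂ)) f)
        (j := j + (k + 1)) (by rw [e1]; exact s1) (by omega), e1, e0]
    · intro s hs
      simp only [chebF, LinearMap.sub_apply, LinearMap.comp_apply, Pi.sub_apply]
      rw [supp_semi a s1 s (by omega), s0 s (by omega), sub_zero]

omit [Nonempty L] in
theorem Creates.poly_act (hC : Creates σ a C) (N : ℕ) (α : ℕ → ℝ) (f : Fock K L T) (j : ℕ)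
    (hf : Supp j (ev σ f)) (hj : j + N ≤ T) :
    ev σ (aeval (C + star C) ((∑ k ∈ Finset.range N,
      Polynomial.C (α k) * cheb k : ℝ[X]).map (algebraMap ℝ ℂ)) f) = polyF a N α (ev σ f) := by
  simp only [Polynomial.map_sum, Polynomial.map_mul, Polynomial.map_C, map_sum, map_mul, aeval_C,
    _root_.sum_apply, polyF]
  refine sum_congr rfl fun k hk => ?_
  have hk' : j + k ≤ T := by simp only [Finset.mem_range] at hk; omega
  rw [← (hC.cheb_act k f j hf hk').1, ContinuousLinearMap.mul_def,
    ContinuousLinearMap.comp_apply, ← map_smul]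
  simp [Algebra.algebraMap_eq_smul_one]

end Vale.Agent.P096.Full.Key.Fock

namespace Vale.Agent.P096.Full.Key

open Finset FockWords Fock

universe u

/-- The coefficients of the commutator of two polynomials at the vacuum. -/
theorem fockSpec : FockSpec.{u} := by
  intro K _ _ _ L _ _ bar a b v N T α β hT hbar ha hb n hn s p q
  have ha₁ : ∀ x, star (a x) * a x = 1 ∧ a x * star (a x) = 1 := fun x => ⟨(ha x).1, (ha x).2.1⟩
  have hb₁ : ∀ x, star (b x) * b x = 1 ∧ b x * star (b x) = 1 := fun x => ⟨(hb x).1, (hb x).2.1⟩
  have ha₂ : ∀ x, a (bar x) = star (a x) := fun x => (ha x).2.2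
  have hb₂ : ∀ x, b (bar x) = star (b x) := fun x => (hb x).2.2
  set P := Polynomial.aeval (semiL (L := T) a) (p.map (algebraMap ℝ ℂ)) with hPdef
  set Q := Polynomial.aeval (semiR (L := T) b) (q.map (algebraMap ℝ ℂ)) with hQdef
  have hP : ∀ (f : Fock K L T) j, Supp j (ev id f) → j + N ≤ T →
      ev id (P f) = polyF a N α (ev id f) := fun f j h₁ h₂ =>
    (creates_left a).poly_act N α f j h₁ h₂
  have hQ : ∀ (f : Fock K L T) j, Supp j (ev List.reverse f) → j + N ≤ T →
      ev List.reverse (Q f) = polyF b N β (ev List.reverse f) := fun f j h₁ h₂ =>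
    (creates_right b).poly_act N β f j h₁ h₂
  have hvL : ev id (vac L T v) = vacF v := ev_vac (fun _ => rfl) v
  have hvR : ev List.reverse (vac L T v) = vacF v := ev_vac (fun _ => List.length_reverse) v
  have hsupp : Supp 0 (vacF v : List L → K) := fun t ht => by
    cases t <;> simp [vacF] at ht ⊢
  have hQv : ev id (Q (vac L T v)) = FockWords.grade b v N β := by
    funext t
    rw [← polyF_vac b hb₁ hbar hb₂ v N β t, ← hvR,
      ← hQ _ 0 (hvR ▸ hsupp) (by omega)]
    simp [ev, List.reverse_reverse]
  have hPv : ev List.reverse (P (vac L T v)) = FockWords.grade a v N α := by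
    funext t
    rw [← polyF_vac a ha₁ hbar ha₂ v N α t, ← hvL,
      ← hP _ 0 (hvL ▸ hsupp) (by omega)]
    simp [ev]
  have hgrade : ∀ (c : L → (K →L[ℂ] K)) (γ : ℕ → ℝ), Supp N (FockWords.grade c v N γ) := fun c γ t ht => by
    rw [FockWords.grade, if_neg (by omega)]
  set l := List.ofFn s with hl
  have hlen : l.length = n := List.length_ofFn
  have eL : ∀ f : Fock K L T, f ⟨⟨n, hn⟩, s⟩ = ev id f l := fun f =>
    (ev_word (σ := id) (fun _ => rfl) f ⟨⟨n, hn⟩, s⟩).symm
  have eR : ∀ f : Fock K L T, f ⟨⟨n, hn⟩, s⟩ = ev List.reverse f l.reverse := fun f =>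
    (ev_word List.reverse_reverse f ⟨⟨n, hn⟩, s⟩).symm
  rw [sub_apply, ContinuousLinearMap.mul_def, ContinuousLinearMap.mul_def,
    ContinuousLinearMap.comp_apply, ContinuousLinearMap.comp_apply, PiLp.sub_apply,
    eL (P (Q (vac L T v))), eR (Q (P (vac L T v))),
    hP _ N (hQv ▸ hgrade b β) (by omega), hQv,
    hQ _ N (hPv ▸ hgrade a α) (by omega), hPv,
    polyF_grade a ha₁ hbar ha₂, polyF_grade b hb₁ hbar hb₂, List.length_reverse, hlen,
    ← smul_sub, show ((((Real.sqrt (Fintype.card L))⁻¹ ^ n : ℝ) : ℂ)) = kc L ^ n by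
      simp [kc]]
  congr 1
  rw [← sum_range_reflect (fun r => ∑ x ∈ range N,
    if r + x < N ∧ n - r + x < N then
      ((β (r + x) * α (n - r + x) : ℝ) : ℂ) • avgW x fun d : List L =>
        (wordA b (l.reverse.take r ++ d) * wordB a (inv bar d ++ l.reverse.drop r)) v
    else 0) (n + 1), ← sum_sub_distrib]
  refine sum_congr rfl fun r hr => ?_
  rw [← sum_sub_distrib]
  refine sum_congr rfl fun x _ => ?_
  have hr' : r ≤ n := by simp only [Finset.mem_range] at hr; omega
  rw [show n + 1 - 1 - r = n - r by omega, show n - (n - r) = r by omega]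
  have key : (avgW x fun d : List L => (wordA b (l.reverse.take (n - r) ++ d) *
      wordB a (inv bar d ++ l.reverse.drop (n - r))) v) =
      avgW x fun c : List L =>
        (wordB b (inv bar c ++ l.drop r) * wordA a (l.take r ++ c)) v := by
    rw [← avgW_relabel hbar x]
    refine avgW_congr x fun c _ => ?_
    rw [List.take_reverse, List.drop_reverse, hlen, show n - (n - r) = r by omega]
    simp [wordA, wordB, inv, List.map_reverse, List.map_map, Function.comp_def, hbar]
  by_cases h : r + x < N ∧ n - r + x < N
  · rw [if_pos h, if_pos ⟨h.2, h.1⟩, if_pos h, key, mul_comm (β _) (α _), ← smul_sub,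
      ← avgW_sub]
    simp only [sub_apply]
  · rw [if_neg h, if_neg fun h' => h ⟨h'.2, h'.1⟩, if_neg h, sub_zero]

end Vale.Agent.P096.Full.Key
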