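import Vale.Agent.P096.Full.Key.Defs

/-!
P096, KEY/Scalar: the closed form of the scalar in front of a split.
-/

namespace Vale.Agent.P096.Full.Key.ScalarKap

open Finset

/-- The mean of a cosine over the angles. -/
noncomputable def avgC (N : ℕ) (m : ℝ) : ℝ :=
  (numAng N : ℝ)⁻¹ * ∑ q ∈ range (numAng N), Real.cos (m * ang N q)

/-- The indicator of zero. -/
noncomputable def ind (m : ℤ) : ℝ := if m = 0 then 1 else 0

theorem two_sin_mul_sum_cos (x : ℝ) (M : ℕ) :
    2 * Real.sin (x / 2) * ∑ q ∈ range M, Real.cos (q * x) =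
      Real.sin (M * x - x / 2) + Real.sin (x / 2) := by
  induction M with
  | zero => simp
  | succ M ih =>
    rw [sum_range_succ, mul_add, ih]
    push_cast
    rw [show ((M : ℝ) + 1) * x - x / 2 = M * x + x / 2 by ring, Real.sin_sub, Real.sin_add]
    ring

theorem avgC_eq (N : ℕ) (m : ℤ) (hm : |m| < 8 * (N : ℤ) + 16) : avgC N m = ind m := by
  have hD : (0 : ℝ) < 4 * N + 8 := by positivity
  have hA : (numAng N : ℝ) = 2 * (4 * N + 8) := by simp [numAng]
  rw [avgC, ind]
  by_cases h0 : m = 0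
  · subst h0
    rw [if_pos rfl]
    simp only [Int.cast_zero, zero_mul, Real.cos_zero, sum_const, card_range, nsmul_eq_mul,
      mul_one]
    rw [inv_mul_cancel₀]
    rw [hA]; positivity
  rw [if_neg h0]
  set x := Real.pi * m / (4 * (N : ℝ) + 8) with hx
  have hsum : (∑ q ∈ range (numAng N), Real.cos ((m : ℝ) * ang N q)) =
      ∑ q ∈ range (numAng N), Real.cos (q * x) := by
    refine sum_congr rfl fun q _ => ?_
    rw [ang, hx]
    congr 1
    ring
  rw [hsum]
  have hne : Real.sin (x / 2) ≠ 0 := by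
    rw [Ne, Real.sin_eq_zero_iff]
    rintro ⟨k, hk⟩
    have e : (m : ℝ) = k * (8 * N + 16) := by
      rw [hx] at hk
      field_simp at hk
      nlinarith [Real.pi_pos]
    have e' : m = k * (8 * N + 16) := by exact_mod_cast e
    rw [e', abs_mul, abs_of_pos (by positivity : (0 : ℤ) < 8 * N + 16)] at hm
    have : |k| < 1 := by nlinarith [abs_nonneg k]
    exact h0 (by rw [e', Int.abs_lt_one_iff.1 this, zero_mul])
  have h := two_sin_mul_sum_cos x (numAng N)
  have e2 : (numAng N : ℝ) * x - x / 2 = -(x / 2) + m * (2 * Real.pi) := by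
    rw [hA, hx]
    field_simp
    ring
  rw [e2, Real.sin_add_int_mul_two_pi, Real.sin_neg, neg_add_cancel] at h
  rcases mul_eq_zero.1 h with h | h
  · exact absurd h (mul_ne_zero two_ne_zero hne)
  · rw [h, mul_zero]

/-- The integer combination left by the average. -/
noncomputable def tri (e f : ℤ) : ℝ :=
  (ind (e + f) + ind (e - f)) / 2 -
    ((ind (e + 6 + f) + ind (e + 6 - f)) + (ind (e - 6 + f) + ind (e - 6 - f))) / 4

theorem trig_expand (φ e f g : ℝ) :
    Real.cos (e * φ) * ((1 - Real.cos (6 * φ)) / 2) *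
        ((Real.cos (f * φ) + Real.cos (g * φ)) / 2) =
      (((Real.cos ((e + f) * φ) + Real.cos ((e - f) * φ)) / 2 -
          ((Real.cos ((e + 6 + f) * φ) + Real.cos ((e + 6 - f) * φ)) +
            (Real.cos ((e - 6 + f) * φ) + Real.cos ((e - 6 - f) * φ))) / 4) +
        ((Real.cos ((e + g) * φ) + Real.cos ((e - g) * φ)) / 2 -
          ((Real.cos ((e + 6 + g) * φ) + Real.cos ((e + 6 - g) * φ)) +
            (Real.cos ((e - 6 + g) * φ) + Real.cos ((e - 6 - g) * φ))) / 4)) / 4 := by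
  simp only [add_mul, sub_mul, Real.cos_add, Real.cos_sub, Real.sin_add, Real.sin_sub]
  ring

theorem wgt_mul_sin_sq (φ : ℝ) :
    wgt φ * Real.sin φ ^ 2 = (1 - Real.cos (6 * φ)) / 2 := by
  rw [show (6 : ℝ) * φ = 2 * (3 * φ) by ring, Real.cos_two_mul, wgt]
  have h := Real.sin_sq_add_cos_sq (3 * φ)
  have h3 := Real.sin_three_mul φ
  linear_combination (-1 : ℝ) * (Real.sin (3 * φ) + (3 * Real.sin φ - 4 * Real.sin φ ^ 3)) * h3 + h

/-- The average over the angles of one product. -/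
theorem avg_product (N : ℕ) (e f g : ℤ) (he : |e| + 6 + |f| < 8 * (N : ℤ) + 16)
    (hg : |e| + 6 + |g| < 8 * (N : ℤ) + 16) (hgt : |e| + 6 < |g|) :
    (numAng N : ℝ)⁻¹ * ∑ q ∈ range (numAng N),
      Real.cos ((e : ℝ) * ang N q) * ((1 - Real.cos (6 * ang N q)) / 2) *
        ((Real.cos ((f : ℝ) * ang N q) + Real.cos ((g : ℝ) * ang N q)) / 2) =
      tri e f / 4 := by
  have key : ∀ m : ℤ, |m| < 8 * (N : ℤ) + 16 →
      (numAng N : ℝ)⁻¹ * ∑ q ∈ range (numAng N), Real.cos ((m : ℝ) * ang N q) = ind m :=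
    fun m hm => avgC_eq N m hm
  simp only [trig_expand, sum_add_distrib, sum_sub_distrib, ← sum_div]
  simp only [mul_add, mul_sub, ← mul_div_assoc]
  have c1 := key (e + f) (by have := abs_add_le e f; omega)
  have c2 := key (e - f) (by have := abs_sub e f; omega)
  have c3 := key (e + 6 + f) (by have := abs_add_three e 6 f; norm_num at this ⊢; omega)
  have c4 := key (e + 6 - f) (by
    have := abs_add_three e 6 (-f); rw [abs_neg, ← sub_eq_add_neg] at this
    norm_num at this ⊢; omega)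
  have c5 := key (e - 6 + f) (by
    have := abs_add_three e (-6) f; rw [← sub_eq_add_neg] at this
    norm_num at this ⊢; omega)
  have c6 := key (e - 6 - f) (by
    have := abs_add_three e (-6) (-f); rw [abs_neg f, ← sub_eq_add_neg, ← sub_eq_add_neg] at this
    norm_num at this ⊢; omega)
  have d1 := key (e + g) (by have := abs_add_le e g; omega)
  have d2 := key (e - g) (by have := abs_sub e g; omega)
  have d3 := key (e + 6 + g) (by have := abs_add_three e 6 g; norm_num at this ⊢; omega)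
  have d4 := key (e + 6 - g) (by
    have := abs_add_three e 6 (-g); rw [abs_neg, ← sub_eq_add_neg] at this
    norm_num at this ⊢; omega)
  have d5 := key (e - 6 + g) (by
    have := abs_add_three e (-6) g; rw [← sub_eq_add_neg] at this
    norm_num at this ⊢; omega)
  have d6 := key (e - 6 - g) (by
    have := abs_add_three e (-6) (-g); rw [abs_neg g, ← sub_eq_add_neg, ← sub_eq_add_neg] at this
    norm_num at this ⊢; omega)
  push_cast at c1 c2 c3 c4 c5 c6 d1 d2 d3 d4 d5 d6
  rw [c1, c2, c3, c4, c5, c6, d1, d2, d3, d4, d5, d6]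
  have z : ∀ m : ℤ, m ≠ 0 → ind m = 0 := fun m hm => if_neg hm
  have hg' : 0 ≤ |e| := abs_nonneg e
  rw [z (e + g), z (e - g), z (e + 6 + g), z (e + 6 - g), z (e - 6 + g), z (e - 6 - g), tri]
  · ring
  all_goals
    intro h
    rcases abs_choice e with h₁ | h₁ <;> rcases abs_choice g with h₂ | h₂ <;> omega

/-- The scalar in front of a split in closed form. -/
theorem kap_eq {N n r r' l : ℕ} (hn : n ∈ lens N) (hr : r ∈ slots n) (hr' : r' ≤ n) (hl : l < N) :
    kap N n r r' l = if r' + l < N ∧ n - r' + l < N then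
      tri ((n : ℤ) - 2 * r) (2 * (r' : ℤ) - n) /
        (4 * n * ((r' : ℝ) + l + 1) * (((n - r' : ℕ) : ℝ) + l + 1)) else 0 := by
  simp only [lens, slots, Finset.mem_Ico, Finset.mem_Icc] at hn hr
  rw [kap]
  refine if_congr Iff.rfl ?_ rfl
  have hprod : ∀ φ : ℝ, Real.cos (((n : ℝ) - 2 * r) * φ) * wgt φ *
      (amp φ (r' + l) * amp φ (n - r' + l)) =
      Real.cos ((((n : ℤ) - 2 * r : ℤ) : ℝ) * φ) * ((1 - Real.cos (6 * φ)) / 2) *
        ((Real.cos (((2 * (r' : ℤ) - n : ℤ) : ℝ) * φ) +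
          Real.cos ((((n : ℤ) + 2 * l + 2 : ℤ) : ℝ) * φ)) / 2) /
        (((r' : ℝ) + l + 1) * (((n - r' : ℕ) : ℝ) + l + 1)) := by
    intro φ
    rw [← wgt_mul_sin_sq]
    simp only [amp]
    push_cast [Nat.cast_sub hr']
    rw [show (2 * (r' : ℝ) - n) * φ = ((r' : ℝ) + l + 1) * φ - ((n : ℝ) - r' + l + 1) * φ by ring,
      show ((n : ℝ) + 2 * l + 2) * φ = ((r' : ℝ) + l + 1) * φ + ((n : ℝ) - r' + l + 1) * φ by
        ring, Real.cos_sub, Real.cos_add]
    have h1 : (r' : ℝ) + l + 1 ≠ 0 := by positivity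
    have h2 : ((n : ℝ) - r' + l + 1) ≠ 0 := by
      have : (r' : ℝ) ≤ n := by exact_mod_cast hr'
      positivity
    field_simp
    ring
  simp only [hprod]
  rw [← sum_div, ← mul_div_assoc, avg_product N]
  · field_simp
  · rw [abs_of_nonneg (by omega : (0 : ℤ) ≤ (n : ℤ) - 2 * r)]
    have := abs_le.2 (⟨by omega, by omega⟩ : -(n : ℤ) ≤ 2 * (r' : ℤ) - n ∧ 2 * (r' : ℤ) - n ≤ n)
    omega
  · rw [abs_of_nonneg (by omega : (0 : ℤ) ≤ (n : ℤ) - 2 * r),
      abs_of_nonneg (by omega : (0 : ℤ) ≤ (n : ℤ) + 2 * l + 2)]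
    omega
  · rw [abs_of_nonneg (by omega : (0 : ℤ) ≤ (n : ℤ) - 2 * r),
      abs_of_nonneg (by omega : (0 : ℤ) ≤ (n : ℤ) + 2 * l + 2)]
    omega

end Vale.Agent.P096.Full.Key.ScalarKap
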