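import Vale.Agent.P096.Full.Key.ScalarPoly
import Vale.Agent.P096.Full.Key.ScalarKap

/-!
P096, KEY/Scalar: the properties of the test polynomials and of the scalars in front of the
splits, assembled.
-/

namespace Vale.Agent.P096.Full.Key.Scalar

open Finset ScalarKap

theorem ind_nonneg (m : ℤ) : 0 ≤ ind m := by
  rw [ind]; split_ifs <;> norm_num

theorem abs_tri_le (e f : ℤ) : |tri e f| ≤ (ind (e + f) + ind (e - f)) / 2 +
    ((ind (e + 6 + f) + ind (e + 6 - f)) + (ind (e - 6 + f) + ind (e - 6 - f))) / 4 := by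
  have h1 := ind_nonneg (e + f)
  have h2 := ind_nonneg (e - f)
  have h3 := ind_nonneg (e + 6 + f)
  have h4 := ind_nonneg (e + 6 - f)
  have h5 := ind_nonneg (e - 6 + f)
  have h6 := ind_nonneg (e - 6 - f)
  rw [tri, abs_le]
  constructor <;> linarith

theorem tri_ne_zero {e f : ℤ} (h : tri e f ≠ 0) :
    f = -e ∨ f = e ∨ f = -(e + 6) ∨ f = e + 6 ∨ f = -(e - 6) ∨ f = e - 6 := by
  by_contra hc
  simp only [not_or] at hc
  obtain ⟨c1, c2, c3, c4, c5, c6⟩ := hc
  refine h ?_
  rw [tri, ind, ind, ind, ind, ind, ind, if_neg (by omega), if_neg (by omega), if_neg (by omega),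
    if_neg (by omega), if_neg (by omega), if_neg (by omega)]
  norm_num

theorem sum_ind_le_one (s : Finset ℕ) {φ : ℕ → ℤ} (hφ : Function.Injective φ) :
    ∑ i ∈ s, ind (φ i) ≤ 1 := by
  simp only [ind]
  rw [sum_boole]
  have h : (s.filter fun i => φ i = 0).card ≤ 1 := card_le_one.2 fun a ha b hb =>
    hφ (by rw [(mem_filter.1 ha).2, (mem_filter.1 hb).2])
  exact_mod_cast h

theorem sum_abs_tri (s : Finset ℕ) (e : ℤ) (m : ℤ) :
    ∑ i ∈ s, |tri e (2 * (i : ℤ) - m)| ≤ 2 := by
  refine (sum_le_sum (g := fun i : ℕ => (ind (e + (2 * (i : ℤ) - m)) + ind (e - (2 * (i : ℤ) - m))) / 2 +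
    ((ind (e + 6 + (2 * (i : ℤ) - m)) + ind (e + 6 - (2 * (i : ℤ) - m))) +
      (ind (e - 6 + (2 * (i : ℤ) - m)) + ind (e - 6 - (2 * (i : ℤ) - m)))) / 4)
    fun i _ => abs_tri_le e _).trans ?_
  simp only [sum_add_distrib, ← sum_div]
  have inj : ∀ c : ℤ, Function.Injective fun i : ℕ => c + (2 * (i : ℤ) - m) := fun c a b h => by
    simp only at h; omega
  have inj' : ∀ c : ℤ, Function.Injective fun i : ℕ => c - (2 * (i : ℤ) - m) := fun c a b h => by
    simp only at h; omega
  have := sum_ind_le_one s (inj e)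
  have := sum_ind_le_one s (inj' e)
  have := sum_ind_le_one s (inj (e + 6))
  have := sum_ind_le_one s (inj' (e + 6))
  have := sum_ind_le_one s (inj (e - 6))
  have := sum_ind_le_one s (inj' (e - 6))
  linarith

theorem sum_inv_sq_le {x : ℝ} (hx : 1 < x) (N : ℕ) :
    ∑ l ∈ range N, ((x + l) ^ 2)⁻¹ ≤ 1 / (x - 1) := by
  have key : ∀ M : ℕ, ∑ l ∈ range M, ((x + l) ^ 2)⁻¹ ≤ 1 / (x - 1) - 1 / (x - 1 + M) := by
    intro M
    induction M with
    | zero => simp
    | succ M ih =>
      have h1 : 0 < x - 1 + M := by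
        have : (0 : ℝ) ≤ M := M.cast_nonneg
        linarith
      rw [sum_range_succ]
      push_cast
      have : ((x + M) ^ 2)⁻¹ ≤ 1 / (x - 1 + M) - 1 / (x - 1 + (M + 1)) := by
        rw [div_sub_div _ _ h1.ne' (by linarith), inv_eq_one_div,
          div_le_div_iff₀ (by positivity) (mul_pos h1 (by linarith))]
        nlinarith
      linarith
  refine (key N).trans (sub_le_self _ ?_)
  have : (0 : ℝ) ≤ N := N.cast_nonneg
  exact div_nonneg zero_le_one (by linarith)

theorem sum_inv_le_log {M : ℕ} (hM : 64 ≤ M) :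
    ∑ n ∈ Ico 64 M, (n : ℝ)⁻¹ ≤ Real.log M := by
  have key : ∑ n ∈ Ico 64 M, (n : ℝ)⁻¹ ≤ Real.log ((M - 1 : ℕ) : ℝ) := by
    induction M, hM using Nat.le_induction with
    | base => simpa using Real.log_natCast_nonneg 63
    | succ M hM ih =>
      rw [sum_Ico_succ_top hM]
      have hM1 : (1 : ℝ) < M := by exact_mod_cast (by omega : 1 < M)
      have h := Real.log_le_sub_one_of_pos (div_pos (sub_pos.2 hM1) (by linarith : (0 : ℝ) < M))
      rw [Real.log_div (by linarith) (by linarith), sub_div, div_self (by linarith)] at h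
      rw [Nat.add_sub_cancel]
      rw [Nat.cast_sub (by omega : 1 ≤ M), Nat.cast_one] at ih
      rw [← one_div]
      linarith
  refine key.trans (Real.log_le_log ?_ ?_)
  · exact_mod_cast (by omega : 0 < M - 1)
  · exact_mod_cast (by omega : M - 1 ≤ M)

theorem log_le_sum_inv {M : ℕ} (hM : 64 ≤ M) :
    Real.log M - Real.log 64 ≤ ∑ n ∈ Ico 64 M, (n : ℝ)⁻¹ := by
  induction M, hM using Nat.le_induction with
  | base => simp
  | succ M hM ih =>
    rw [sum_Ico_succ_top hM]
    have hM1 : (0 : ℝ) < M := by exact_mod_cast (by omega : 0 < M)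
    have h := Real.log_le_sub_one_of_pos (div_pos (by linarith : (0 : ℝ) < M + 1) hM1)
    rw [Real.log_div (by linarith) (by linarith), add_div, div_self (by linarith), one_div] at h
    push_cast
    linarith

theorem card_slots_le (n : ℕ) : ((slots n).card : ℝ) ≤ n / 4 := by
  have h : (slots n).card * 4 ≤ n := by
    rw [slots, Nat.card_Icc]; omega
  rw [le_div_iff₀ (by norm_num)]
  exact_mod_cast h

theorem le_card_slots {n : ℕ} (hn : 64 ≤ n) : (n : ℝ) / 16 ≤ (slots n).card := by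
  have h : n ≤ (slots n).card * 16 := by
    rw [slots, Nat.card_Icc]; omega
  rw [div_le_iff₀ (by norm_num)]
  exact_mod_cast h

theorem sep {N n r r' l : ℕ} (hn : n ∈ lens N) (hr : r ∈ slots n) (hr' : r' ≤ n) (hl : l < N)
    (h : kap N n r r' l ≠ 0) : r' = r ∨ r + 2 ≤ r' ∨ r' + 2 ≤ r := by
  rw [kap_eq hn hr hr' hl] at h
  simp only [lens, slots, Finset.mem_Ico, Finset.mem_Icc] at hn hr
  have ht : tri ((n : ℤ) - 2 * r) (2 * (r' : ℤ) - n) ≠ 0 := by
    intro h0; simp [h0] at h
  rcases tri_ne_zero ht with h1 | h1 | h1 | h1 | h1 | h1 <;> omega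

theorem abs_kap_le {N n r r' l : ℕ} (hn : n ∈ lens N) (hr : r ∈ slots n) (hr' : r' ≤ n)
    (hl : l < N) :
    |kap N n r r' l| ≤
      |tri ((n : ℤ) - 2 * r) (2 * (r' : ℤ) - n)| / (4 * n) * (((n : ℝ) / 16 + l) ^ 2)⁻¹ := by
  rw [kap_eq hn hr hr' hl]
  simp only [lens, slots, Finset.mem_Ico, Finset.mem_Icc] at hn hr
  split_ifs with hc
  swap
  · rw [abs_zero]; positivity
  by_cases ht : tri ((n : ℤ) - 2 * r) (2 * (r' : ℤ) - n) = 0
  · simp [ht]
  have hbig : n ≤ 16 * (r' + 1) ∧ n ≤ 16 * (n - r' + 1) := by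
    rcases tri_ne_zero ht with h1 | h1 | h1 | h1 | h1 | h1 <;> omega
  have ha : (n : ℝ) / 16 + l ≤ (r' : ℝ) + l + 1 := by
    have : (n : ℝ) ≤ 16 * ((r' : ℝ) + 1) := by exact_mod_cast hbig.1
    linarith
  have hb : (n : ℝ) / 16 + l ≤ ((n - r' : ℕ) : ℝ) + l + 1 := by
    have : (n : ℝ) ≤ 16 * (((n - r' : ℕ) : ℝ) + 1) := by exact_mod_cast hbig.2
    linarith
  have hn0 : (0 : ℝ) < n := by exact_mod_cast (by omega : 0 < n)
  rw [abs_div, abs_of_pos (by positivity :
    (0 : ℝ) < 4 * n * ((r' : ℝ) + l + 1) * (((n - r' : ℕ) : ℝ) + l + 1)), mul_assoc,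
    ← div_div, div_eq_mul_inv _ (((r' : ℝ) + l + 1) * _)]
  refine mul_le_mul_of_nonneg_left (inv_anti₀ (by positivity) ?_) (by positivity)
  rw [sq]
  exact mul_le_mul ha hb (by positivity) (by positivity)

theorem sum_abs_kap {N n r : ℕ} (hn : n ∈ lens N) (hr : r ∈ slots n) :
    ∑ r' ∈ range (n + 1), ∑ l ∈ range N, |kap N n r r' l| ≤ 16 / (n : ℝ) ^ 2 := by
  have hn64 : 64 ≤ n := (Finset.mem_Ico.1 hn).1
  have hnr : (64 : ℝ) ≤ n := by exact_mod_cast hn64
  have hS : (∑ l ∈ range N, (((n : ℝ) / 16 + (l : ℝ)) ^ 2)⁻¹ : ℝ) ≤ (32 : ℝ) / n := by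
    refine (sum_inv_sq_le (by linarith) N).trans ?_
    rw [div_le_div_iff₀ (by linarith) (by linarith)]
    linarith
  calc ∑ r' ∈ range (n + 1), ∑ l ∈ range N, |kap N n r r' l|
      ≤ ∑ r' ∈ range (n + 1), ∑ l ∈ range N,
          |tri ((n : ℤ) - 2 * r) (2 * (r' : ℤ) - n)| / (4 * n) *
            (((n : ℝ) / 16 + l) ^ 2)⁻¹ :=
        sum_le_sum fun r' hr' => sum_le_sum fun l hl =>
          abs_kap_le hn hr (Nat.lt_succ_iff.1 (Finset.mem_range.1 hr')) (Finset.mem_range.1 hl)
    _ = (∑ r' ∈ range (n + 1), |tri ((n : ℤ) - 2 * r) (2 * (r' : ℤ) - n)|) / (4 * n) *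
          ∑ l ∈ range N, (((n : ℝ) / 16 + l) ^ 2)⁻¹ := by
        rw [sum_div, sum_mul_sum]
    _ ≤ 2 / (4 * n) * (32 / n) := by
        refine mul_le_mul (div_le_div_of_nonneg_right (sum_abs_tri _ _ _) (by positivity)) hS
          (sum_nonneg fun l _ => by positivity) (by positivity)
    _ = 16 / (n : ℝ) ^ 2 := by ring

theorem diag_kap {N n r l : ℕ} (hn : n ∈ lens N) (hr : r ∈ slots n) (hl : l < N) :
    kap N n r r l = if r + l < N ∧ n - r + l < N then
      1 / (8 * n * ((r : ℝ) + l + 1) * (((n - r : ℕ) : ℝ) + l + 1)) else 0 := by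
  have hr' : r ≤ n := by
    have := Finset.mem_Icc.1 hr; omega
  rw [kap_eq hn hr hr' hl]
  simp only [lens, slots, Finset.mem_Ico, Finset.mem_Icc] at hn hr
  refine if_congr Iff.rfl ?_ rfl
  have : tri ((n : ℤ) - 2 * r) (2 * (r : ℤ) - n) = 1 / 2 := by
    rw [tri, ind, ind, ind, ind, ind, ind, if_pos (by omega), if_neg (by omega), if_neg (by omega),
      if_neg (by omega), if_neg (by omega), if_neg (by omega)]
    norm_num
  rw [this, div_div]
  congr 1
  ring

theorem diag_kap_nonneg {N n r l : ℕ} (hn : n ∈ lens N) (hr : r ∈ slots n) (hl : l < N) :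
    0 ≤ kap N n r r l := by
  rw [diag_kap hn hr hl]
  split_ifs <;> positivity

theorem le_sum_diag {N n r : ℕ} (hn : n ∈ lens N) (hr : r ∈ slots n) (h2 : 2 * n < N) :
    1 / (32 * (n : ℝ) ^ 2) ≤ ∑ l ∈ range N, kap N n r r l := by
  have hn64 : 64 ≤ n := (Finset.mem_Ico.1 hn).1
  have hr4 : r ≤ n / 4 := (Finset.mem_Icc.1 hr).2
  have hn0 : (0 : ℝ) < n := by exact_mod_cast (by omega : 0 < n)
  calc 1 / (32 * (n : ℝ) ^ 2) = ∑ _l ∈ range n, 1 / (32 * (n : ℝ) ^ 3) := by
        rw [sum_const, card_range, nsmul_eq_mul]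
        field_simp
    _ ≤ ∑ l ∈ range n, kap N n r r l := by
        refine sum_le_sum fun l hl => ?_
        have hl' : l < n := Finset.mem_range.1 hl
        rw [diag_kap hn hr (by omega), if_pos (by omega)]
        refine one_div_le_one_div_of_le (by positivity) ?_
        have ha : (r : ℝ) + l + 1 ≤ 2 * n := by exact_mod_cast (by omega : r + l + 1 ≤ 2 * n)
        have hb : ((n - r : ℕ) : ℝ) + l + 1 ≤ 2 * n := by
          exact_mod_cast (by omega : n - r + l + 1 ≤ 2 * n)
        have := mul_le_mul ha hb (by positivity) (by positivity)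
        nlinarith
    _ ≤ _ := sum_le_sum_of_subset_of_nonneg (range_subset_range.2 (by omega))
        fun l hl _ => diag_kap_nonneg hn hr (Finset.mem_range.1 hl)

end Vale.Agent.P096.Full.Key.Scalar

namespace Vale.Agent.P096.Full.Key

open Finset Scalar

/-- The trigonometric half. -/
theorem scalarSpec : ScalarSpec := by
  refine ⟨12, 1 / 1024, 2 ^ 16, by norm_num, by norm_num, fun N φ =>
    ⟨ScalarPoly.natDegree_poly N φ, ScalarPoly.abs_poly_le N φ⟩,
    fun N n r r' l hn hr hr' hl h => sep hn hr hr' hl h, ?_, ?_, ?_⟩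
  · intro N hN
    have hsub : Ico 64 (N / 4 + 1) ⊆ lens N := Finset.Ico_subset_Ico le_rfl (by omega)
    have e : ∀ n ∈ lens N, ∀ r ∈ slots n,
        (∑ r' ∈ range (n + 1), ∑ l ∈ range N, if r' = r then kap N n r r' l else 0) =
          ∑ l ∈ range N, kap N n r r l := by
      intro n _ r hr
      have hr' : r ∈ range (n + 1) := by
        have := Finset.mem_Icc.1 hr
        rw [Finset.mem_range]; omega
      rw [sum_eq_single_of_mem r hr' fun b _ hb => by simp [hb]]
      simp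
    have lower : ∀ n ∈ Ico 64 (N / 4 + 1),
        1 / 512 * (n : ℝ)⁻¹ ≤ ∑ r ∈ slots n, ∑ l ∈ range N, kap N n r r l := by
      intro n hn
      have hn' := Finset.mem_Ico.1 hn
      have hn0 : (0 : ℝ) < n := by exact_mod_cast (by omega : 0 < n)
      calc 1 / 512 * (n : ℝ)⁻¹ = (n : ℝ) / 16 * (1 / (32 * (n : ℝ) ^ 2)) := by
            field_simp
            ring
        _ ≤ (slots n).card * (1 / (32 * (n : ℝ) ^ 2)) :=
            mul_le_mul_of_nonneg_right (le_card_slots hn'.1) (by positivity)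
        _ = ∑ _r ∈ slots n, 1 / (32 * (n : ℝ) ^ 2) := by rw [sum_const, nsmul_eq_mul]
        _ ≤ _ := sum_le_sum fun r hr => le_sum_diag (hsub hn) hr (by omega)
    rw [sumIdx, sum_congr rfl fun n hn => sum_congr rfl (e n hn)]
    refine le_trans ?_ (sum_le_sum_of_subset_of_nonneg hsub fun n hn _ =>
      sum_nonneg fun r hr => sum_nonneg fun l hl =>
        diag_kap_nonneg hn hr (Finset.mem_range.1 hl))
    refine le_trans ?_ (sum_le_sum lower)
    rw [← mul_sum]
    have hM := log_le_sum_inv (M := N / 4 + 1) (by omega)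
    have hMN : Real.log (N : ℝ) - Real.log 4 ≤ Real.log ((N / 4 + 1 : ℕ) : ℝ) := by
      rw [← Real.log_div (by exact_mod_cast (by omega : N ≠ 0)) (by norm_num)]
      refine Real.log_le_log (by positivity) ?_
      rw [div_le_iff₀ (by norm_num)]
      exact_mod_cast (by omega : N ≤ (N / 4 + 1) * 4)
    have hlog : Real.log ((2 : ℝ) ^ 16) ≤ Real.log N :=
      Real.log_le_log (by norm_num) (by exact_mod_cast hN)
    rw [Real.log_pow] at hlog
    rw [show (64 : ℝ) = 2 ^ 6 by norm_num, Real.log_pow] at hM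
    rw [show (4 : ℝ) = 2 ^ 2 by norm_num, Real.log_pow] at hMN
    push_cast at hlog hM hMN ⊢
    linarith
  · intro N hN
    calc sumIdx N (fun n r r' l => |kap N n r r' l|)
        ≤ ∑ n ∈ lens N, ∑ _r ∈ slots n, 16 / (n : ℝ) ^ 2 :=
          sum_le_sum fun n hn => sum_le_sum fun r hr => sum_abs_kap hn hr
      _ ≤ ∑ n ∈ lens N, 4 * (n : ℝ)⁻¹ := by
          refine sum_le_sum fun n hn => ?_
          have hn' := Finset.mem_Ico.1 hn
          have hn0 : (0 : ℝ) < n := by exact_mod_cast (by omega : 0 < n)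
          rw [sum_const, nsmul_eq_mul]
          refine (mul_le_mul_of_nonneg_right (card_slots_le n) (by positivity)).trans_eq ?_
          field_simp
          ring
      _ ≤ 12 * Real.log N := by
          rw [← mul_sum]
          have := sum_inv_le_log hN
          have h0 := Real.log_natCast_nonneg N
          show 4 * ∑ n ∈ Ico 64 N, (n : ℝ)⁻¹ ≤ _
          linarith
  · intro N hN
    calc ∑ n ∈ lens N, ∑ _r ∈ slots n, ((n : ℝ) ^ 2)⁻¹
        ≤ ∑ n ∈ lens N, (n : ℝ)⁻¹ := by
          refine sum_le_sum fun n hn => ?_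
          have hn' := Finset.mem_Ico.1 hn
          have hn0 : (0 : ℝ) < n := by exact_mod_cast (by omega : 0 < n)
          rw [sum_const, nsmul_eq_mul]
          refine (mul_le_mul_of_nonneg_right (card_slots_le n) (by positivity)).trans ?_
          field_simp
          norm_num
      _ ≤ 12 * Real.log N := by
          have := sum_inv_le_log hN
          have h0 := Real.log_natCast_nonneg N
          show ∑ n ∈ Ico 64 N, (n : ℝ)⁻¹ ≤ _
          linarith

end Vale.Agent.P096.Full.Key
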