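import Vale.Agent.P096.Full.Defs

/-!
P096, KEY: interface between the scalar half and the operator half.
-/

open scoped InnerProductSpace

namespace Vale.Agent.P096.Full.Key

universe u v

/-- The mean over words of length `n`, letter by letter. -/
noncomputable def avgW {L : Type u} [Fintype L] {E : Type v} [AddCommGroup E] [Module ℂ E] :
    ℕ → (List L → E) → E
  | 0, f => f []
  | n + 1, f => (Fintype.card L : ℂ)⁻¹ • ∑ x : L, avgW n fun s => f (x :: s)

/-- The product along a word. -/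
def wordA {L : Type u} {R : Type v} [Monoid R] (a : L → R) (s : List L) : R := (s.map a).prod

/-- The reversed product along a word. -/
def wordB {L : Type u} {R : Type v} [Monoid R] (b : L → R) (s : List L) : R :=
  (s.reverse.map b).prod

/-- The inverse word. -/
def inv {L : Type u} (bar : L → L) (s : List L) : List L := s.reverse.map bar

/-- The rescaled Chebyshev polynomials of the second kind. -/
noncomputable def cheb : ℕ → Polynomial ℝ
  | 0 => 1
  | 1 => Polynomial.X
  | k + 2 => Polynomial.X * cheb (k + 1) - cheb k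

/-- The coefficients of the test polynomial. -/
noncomputable def amp (φ : ℝ) (k : ℕ) : ℝ := Real.sin φ * Real.cos ((k + 1) * φ) / (k + 1)

/-- The test polynomial. -/
noncomputable def poly (N : ℕ) (φ : ℝ) : Polynomial ℝ :=
  ∑ k ∈ Finset.range N, Polynomial.C (amp φ k) * cheb k

/-- The weight of the test vector, `(sin 3φ / sin φ) ^ 2`. -/
noncomputable def wgt (φ : ℝ) : ℝ := (3 - 4 * Real.sin φ ^ 2) ^ 2

/-- The number of angles. -/
def numAng (N : ℕ) : ℕ := 2 * (4 * N + 8)

/-- The angles. -/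
noncomputable def ang (N q : ℕ) : ℝ := Real.pi * q / (4 * N + 8)

/-- The scalar in front of the split `r'` with `l` contractions, tested at the slot `r` of words
of length `n`. -/
noncomputable def kap (N n r r' l : ℕ) : ℝ :=
  if r' + l < N ∧ n - r' + l < N then
    (n : ℝ)⁻¹ * ((numAng N : ℝ)⁻¹ * ∑ q ∈ Finset.range (numAng N),
      Real.cos (((n : ℝ) - 2 * r) * ang N q) * wgt (ang N q) *
        (amp (ang N q) (r' + l) * amp (ang N q) (n - r' + l)))
  else 0

/-- The word lengths. -/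
def lens (N : ℕ) : Finset ℕ := Finset.Ico 64 N

/-- The slots. -/
def slots (n : ℕ) : Finset ℕ := Finset.Icc (n / 8 + 1) (n / 4)

/-- A sum over lengths, slots, splits and contraction numbers. -/
noncomputable def sumIdx {E : Type v} [AddCommMonoid E] (N : ℕ) (f : ℕ → ℕ → ℕ → ℕ → E) : E :=
  ∑ n ∈ lens N, ∑ r ∈ slots n, ∑ r' ∈ Finset.range (n + 1), ∑ l ∈ Finset.range N, f n r r' l

/-- SCALAR: what the operator half needs from trigonometry. -/
def ScalarSpec : Prop :=
  ∃ (C c : ℝ) (N₀ : ℕ), 0 < c ∧ 0 ≤ C ∧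
    (∀ (N : ℕ) (φ : ℝ), (poly N φ).natDegree ≤ N ∧
      ∀ t ∈ Set.Icc (-2 : ℝ) 2, |(poly N φ).eval t| ≤ C) ∧
    (∀ N n r r' l : ℕ, n ∈ lens N → r ∈ slots n → r' ≤ n → l < N → kap N n r r' l ≠ 0 →
      r' = r ∨ r + 2 ≤ r' ∨ r' + 2 ≤ r) ∧
    (∀ N : ℕ, N₀ ≤ N → c * Real.log N ≤
      sumIdx N fun n r r' l => if r' = r then kap N n r r' l else 0) ∧
    (∀ N : ℕ, 64 ≤ N → sumIdx N (fun n r r' l => |kap N n r r' l|) ≤ C * Real.log N) ∧
    (∀ N : ℕ, 64 ≤ N → ∑ n ∈ lens N, ∑ _r ∈ slots n, ((n : ℝ) ^ 2)⁻¹ ≤ C * Real.log N)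

/-- FOCK: the coefficients of a commutator of two polynomials at the vacuum. -/
def FockSpec : Prop :=
  ∀ (K : Type u) [NormedAddCommGroup K] [InnerProductSpace ℂ K] [CompleteSpace K]
    (L : Type u) [Fintype L] [Nonempty L] (bar : L → L) (a b : L → (K →L[ℂ] K)) (v : K) (N T : ℕ)
    (α β : ℕ → ℝ),
    2 * N < T → (∀ x, bar (bar x) = x) →
    (∀ x, star (a x) * a x = 1 ∧ a x * star (a x) = 1 ∧ a (bar x) = star (a x)) →
    (∀ x, star (b x) * b x = 1 ∧ b x * star (b x) = 1 ∧ b (bar x) = star (b x)) →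
    ∀ (n : ℕ) (hn : n < T + 1) (s : Fin n → L),
    let p : Polynomial ℝ := ∑ k ∈ Finset.range N, Polynomial.C (α k) * cheb k
    let q : Polynomial ℝ := ∑ k ∈ Finset.range N, Polynomial.C (β k) * cheb k
    ((Polynomial.aeval (semiL (L := T) a) (p.map (algebraMap ℝ ℂ)) *
          Polynomial.aeval (semiR (L := T) b) (q.map (algebraMap ℝ ℂ)) -
        Polynomial.aeval (semiR (L := T) b) (q.map (algebraMap ℝ ℂ)) *
          Polynomial.aeval (semiL (L := T) a) (p.map (algebraMap ℝ ℂ))) (vac L T v)) ⟨⟨n, hn⟩, s⟩ =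
      ((((Real.sqrt (Fintype.card L))⁻¹ ^ n : ℝ) : ℂ)) •
        ∑ r ∈ Finset.range (n + 1), ∑ l ∈ Finset.range N,
          if r + l < N ∧ n - r + l < N then
            ((α (r + l) * β (n - r + l) : ℝ) : ℂ) • avgW l fun c : List L =>
              (wordA a ((List.ofFn s).take r ++ c) * wordB b (inv bar c ++ (List.ofFn s).drop r) -
                wordB b (inv bar c ++ (List.ofFn s).drop r) *
                  wordA a ((List.ofFn s).take r ++ c)) v
          else 0

end Vale.Agent.P096.Full.Key
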