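import Vale.Agent.P096.Full.Key.Defs

/-!
P096, KEY/Fock: creation and annihilation on functions of words, without truncation, and the
closed form of the Chebyshev polynomials of their sum.
-/

namespace Vale.Agent.P096.Full.Key.FockWords

open Finset

universe u v

section Avg

variable {L : Type u} [Fintype L] {E : Type v} [AddCommGroup E] [Module ℂ E]

theorem avgW_succ (n : ℕ) (f : List L → E) :
    avgW (n + 1) f = (Fintype.card L : ℂ)⁻¹ • ∑ x : L, avgW n fun s => f (x :: s) := rfl

theorem avgW_congr (n : ℕ) {f g : List L → E} (h : ∀ c : List L, c.length = n → f c = g c) :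
    avgW n f = avgW n g := by
  induction n generalizing f g with
  | zero => exact h [] rfl
  | succ n ih =>
    rw [avgW_succ, avgW_succ]
    congr 1
    exact sum_congr rfl fun x _ => ih fun c hc => h (x :: c) (by simp [hc])

theorem avgW_smul (n : ℕ) (r : ℂ) (f : List L → E) :
    avgW n (fun c => r • f c) = r • avgW n f := by
  induction n generalizing f with
  | zero => rfl
  | succ n ih =>
    simp only [avgW_succ, ih, ← smul_sum]
    rw [smul_comm]

theorem avgW_map {F : Type*} [AddCommGroup F] [Module ℂ F] (φ : E →ₗ[ℂ] F) (n : ℕ)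
    (f : List L → E) : φ (avgW n f) = avgW n fun c => φ (f c) := by
  induction n generalizing f with
  | zero => rfl
  | succ n ih => simp only [avgW_succ, map_smul, map_sum, ih]

theorem avgW_sub (n : ℕ) (f g : List L → E) :
    avgW n (fun c => f c - g c) = avgW n f - avgW n g := by
  induction n generalizing f g with
  | zero => rfl
  | succ n ih => simp only [avgW_succ, ih, sum_sub_distrib, smul_sub]

theorem avgW_relabel {bar : L → L} (hbar : ∀ x, bar (bar x) = x) (n : ℕ) (f : List L → E) :
    avgW n (fun c => f (c.map bar)) = avgW n f := by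
  induction n generalizing f with
  | zero => rfl
  | succ n ih =>
    rw [avgW_succ, avgW_succ]
    congr 1
    refine (sum_congr rfl fun x _ => ?_).trans
      (Equiv.sum_comp (Function.Involutive.toPerm bar hbar) fun x => avgW n fun s => f (x :: s))
    simp only [List.map_cons]
    exact ih fun s => f (bar x :: s)

end Avg

variable {K : Type u} [NormedAddCommGroup K] [InnerProductSpace ℂ K] [CompleteSpace K]
  {L : Type u} [Fintype L] [Nonempty L]

/-- The weight of a letter. -/
noncomputable def kc (L : Type u) [Fintype L] : ℂ := (((Real.sqrt (Fintype.card L))⁻¹ : ℝ) : ℂ)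

omit [Nonempty L] in
theorem kc_sq : kc L * kc L = (Fintype.card L : ℂ)⁻¹ := by
  rw [kc, ← Complex.ofReal_mul, ← mul_inv, Real.mul_self_sqrt (Nat.cast_nonneg _),
    Complex.ofReal_inv, Complex.ofReal_natCast]

theorem kc_ne_zero : kc L ≠ 0 := by
  rw [kc, Complex.ofReal_ne_zero]
  exact inv_ne_zero (Real.sqrt_ne_zero'.2 (Nat.cast_pos.2 Fintype.card_pos))

theorem kc_mul_card : kc L * kc L * (Fintype.card L : ℂ) = 1 := by
  rw [kc_sq, inv_mul_cancel₀]
  exact Nat.cast_ne_zero.2 Fintype.card_ne_zero

/-- Creation of the first letter. -/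
noncomputable def cre (a : L → (K →L[ℂ] K)) (F : List L → K) : List L → K
  | [] => 0
  | x :: s => kc L • a x (F s)

/-- Annihilation of the first letter. -/
noncomputable def ann (a : L → (K →L[ℂ] K)) (F : List L → K) (s : List L) : K :=
  kc L • ∑ x, star (a x) (F (x :: s))

omit [Nonempty L] [CompleteSpace K] in
theorem avgW_clm (φ : K →L[ℂ] K) (n : ℕ) (f : List L → K) :
    φ (avgW n f) = avgW n fun c => φ (f c) :=
  avgW_map φ.toLinearMap n f

variable (a : L → (K →L[ℂ] K))

omit [Nonempty L] [CompleteSpace K] in
theorem cre_add (F G : List L → K) : cre a (F + G) = cre a F + cre a G := by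
  funext s; cases s <;> simp [cre, smul_add]

omit [Nonempty L] [CompleteSpace K] in
theorem cre_smul (c : ℂ) (F : List L → K) : cre a (c • F) = c • cre a F := by
  funext s; cases s <;> simp [cre, smul_comm c]

omit [Nonempty L] in
theorem ann_add (F G : List L → K) : ann a (F + G) = ann a F + ann a G := by
  funext s; simp [ann, sum_add_distrib, smul_add]

omit [Nonempty L] in
theorem ann_smul (c : ℂ) (F : List L → K) : ann a (c • F) = c • ann a F := by
  funext s; simp [ann, ← smul_sum, smul_comm c]

/-- The sum of the two. -/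
noncomputable def semi : (List L → K) →ₗ[ℂ] (List L → K) where
  toFun F := cre a F + ann a F
  map_add' F G := by
    rw [cre_add, ann_add]
    abel
  map_smul' c F := by
    rw [cre_smul, ann_smul, RingHom.id_apply, smul_add]

/-- The Chebyshev polynomials of the sum. -/
noncomputable def chebF : ℕ → ((List L → K) →ₗ[ℂ] (List L → K))
  | 0 => LinearMap.id
  | 1 => semi a
  | k + 2 => (semi a).comp (chebF (k + 1)) - chebF k

variable (ha : ∀ x, star (a x) * a x = 1 ∧ a x * star (a x) = 1)
include ha

theorem ann_cre (F : List L → K) : ann a (cre a F) = F := by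
  funext s
  have h : ∀ x, star (a x) (kc L • a x (F s)) = kc L • F s := fun x => by
    rw [map_smul]
    congr 1
    simpa [ContinuousLinearMap.mul_def] using
      congrArg (fun T : K →L[ℂ] K => T (F s)) (ha x).1
  simp only [ann, cre, h, sum_const, card_univ, ← Nat.cast_smul_eq_nsmul ℂ, smul_smul]
  rw [show kc L * ((Fintype.card L : ℂ) * kc L) = kc L * kc L * Fintype.card L by ring,
    kc_mul_card, one_smul]

/-- The closed form of the Chebyshev polynomials. -/
theorem chebF_eq : ∀ (k : ℕ) (F : List L → K),
    chebF a k F = ∑ i ∈ range (k + 1), (cre a)^[i] ((ann a)^[k - i] F)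
  | 0, F => by simp [chebF]
  | 1, F => by
    simp [chebF, semi, sum_range_succ]
    abel
  | k + 2, F => by
    have hcre : ∀ (s : Finset ℕ) (G : ℕ → List L → K),
        cre a (∑ i ∈ s, G i) = ∑ i ∈ s, cre a (G i) := fun s G =>
      map_sum (AddMonoidHom.mk' (cre a) (cre_add a)) G s
    have hann : ∀ (s : Finset ℕ) (G : ℕ → List L → K),
        ann a (∑ i ∈ s, G i) = ∑ i ∈ s, ann a (G i) := fun s G =>
      map_sum (AddMonoidHom.mk' (ann a) (ann_add a)) G s
    have e1 : cre a (∑ i ∈ range (k + 1 + 1), (cre a)^[i] ((ann a)^[k + 1 - i] F)) =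
        ∑ i ∈ range (k + 1 + 1), (cre a)^[i + 1] ((ann a)^[k + 2 - (i + 1)] F) := by
      rw [hcre]
      refine sum_congr rfl fun i _ => ?_
      rw [Function.iterate_succ_apply', show k + 2 - (i + 1) = k + 1 - i by omega]
    have e2 : ann a (∑ i ∈ range (k + 1 + 1), (cre a)^[i] ((ann a)^[k + 1 - i] F)) =
        (ann a)^[k + 2] F + ∑ i ∈ range (k + 1), (cre a)^[i] ((ann a)^[k - i] F) := by
      rw [hann, sum_range_succ', add_comm]
      congr 1
      · rw [Function.iterate_zero_apply, Nat.sub_zero, ← Function.iterate_succ_apply' (ann a)]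
      · refine sum_congr rfl fun i _ => ?_
        rw [Function.iterate_succ_apply', ann_cre a ha, show k + 1 - (i + 1) = k - i by omega]
    simp only [chebF, LinearMap.sub_apply, LinearMap.comp_apply, semi, LinearMap.coe_mk,
      AddHom.coe_mk, chebF_eq (k + 1), chebF_eq k, e1, e2]
    rw [sum_range_succ' _ (k + 2)]
    simp only [Function.iterate_zero_apply, Nat.sub_zero]
    abel

omit ha

omit [Nonempty L] [CompleteSpace K] in
theorem cre_iterate : ∀ (i : ℕ) (F : List L → K) (s : List L),
    (cre a)^[i] F s = if i ≤ s.length then kc L ^ i • wordA a (s.take i) (F (s.drop i)) else 0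
  | 0, F, s => by simp [wordA]
  | i + 1, F, [] => by rw [Function.iterate_succ_apply']; simp [cre]
  | i + 1, F, x :: s => by
    rw [Function.iterate_succ_apply', cre, cre_iterate i F s]
    by_cases h : i ≤ s.length
    · rw [if_pos h, if_pos (by simpa using h)]
      simp [wordA, ContinuousLinearMap.mul_def, smul_smul, pow_succ']
    · rw [if_neg h, if_neg (by simpa using h)]
      simp

variable {bar : L → L} (hbar : ∀ x, bar (bar x) = x) (habar : ∀ x, a (bar x) = star (a x))
include hbar habar

theorem ann_iterate : ∀ (c : ℕ) (F : List L → K) (s : List L),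
    (ann a)^[c] F s = (kc L ^ c)⁻¹ • avgW c fun d => wordA a d (F (inv bar d ++ s))
  | 0, F, s => by simp [avgW, wordA, inv]
  | c + 1, F, s => by
    rw [Function.iterate_succ_apply', ann, avgW_succ]
    have e : ∀ x, star (a x) ((ann a)^[c] F (x :: s)) =
        (kc L ^ c)⁻¹ • avgW c fun d => wordA a (bar x :: d) (F (inv bar (bar x :: d) ++ s)) := by
      intro x
      rw [ann_iterate c F (x :: s), map_smul, ← habar]
      congr 1
      rw [avgW_clm (a (bar x))]
      refine avgW_congr c fun d _ => ?_
      simp [wordA, inv, hbar, ContinuousLinearMap.mul_def]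
    simp only [e, ← smul_sum, smul_smul]
    have hs := Equiv.sum_comp (Function.Involutive.toPerm bar hbar)
      fun y => avgW c fun d => wordA a (y :: d) (F (inv bar (y :: d) ++ s))
    rw [show (∑ x, avgW c fun d => wordA a (bar x :: d) (F (inv bar (bar x :: d) ++ s))) = _
      from hs]
    congr 1
    rw [pow_succ, mul_inv, ← kc_sq, mul_assoc ((kc L ^ c)⁻¹) ((kc L)⁻¹),
      inv_mul_cancel_left₀ (kc_ne_zero (L := L)), mul_comm]

omit hbar habar

/-- A function of words that is a weighted reversed product. -/
noncomputable def grade (b : L → (K →L[ℂ] K)) (v : K) (N : ℕ) (β : ℕ → ℝ) (s : List L) : K :=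
  if s.length < N then (((β s.length : ℝ) : ℂ) * kc L ^ s.length) • wordB b s v else 0

/-- A combination of Chebyshev polynomials of the sum. -/
noncomputable def polyF (N : ℕ) (α : ℕ → ℝ) (F : List L → K) : List L → K :=
  ∑ k ∈ range N, ((α k : ℝ) : ℂ) • chebF a k F

/-- The vacuum as a function of words. -/
def vacF (v : K) : List L → K
  | [] => v
  | _ :: _ => 0

include hbar habar ha

theorem chebF_grade (b : L → (K →L[ℂ] K)) (v : K) (N : ℕ) (β : ℕ → ℝ) (k : ℕ) (s : List L) :
    chebF a k (grade b v N β) s = ∑ i ∈ range (k + 1),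
      if i ≤ s.length ∧ s.length - i + (k - i) < N then
        (kc L ^ s.length * ((β (s.length - i + (k - i)) : ℝ) : ℂ)) •
          avgW (k - i) fun d : List L =>
            (wordA a (s.take i ++ d) * wordB b (inv bar d ++ s.drop i)) v
      else 0 := by
  rw [chebF_eq a ha, Finset.sum_apply]
  refine sum_congr rfl fun i _ => ?_
  rw [cre_iterate]
  by_cases hi : i ≤ s.length
  swap
  · rw [if_neg hi, if_neg fun h => hi h.1]
  rw [if_pos hi, ann_iterate a hbar habar]
  have hlen : ∀ d : List L, d.length = k - i →
      (inv bar d ++ s.drop i).length = s.length - i + (k - i) := fun d hd => by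
    simp [inv, hd]; omega
  rw [map_smul, avgW_clm (wordA a (s.take i)), smul_smul]
  by_cases hj : s.length - i + (k - i) < N
  · rw [if_pos ⟨hi, hj⟩]
    rw [avgW_congr (k - i) (g := fun d =>
      (((β (s.length - i + (k - i)) : ℝ) : ℂ) * kc L ^ (s.length - i + (k - i))) •
        (wordA a (s.take i ++ d) * wordB b (inv bar d ++ s.drop i)) v) fun d hd => by
      rw [grade, hlen d hd, if_pos hj]
      simp [wordA, ContinuousLinearMap.mul_def], avgW_smul, smul_smul]
    congr 1
    have hn : kc L ^ i * kc L ^ (s.length - i) = kc L ^ s.length := by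
      rw [← pow_add, Nat.add_sub_cancel' hi]
    rw [pow_add, ← hn]
    field_simp [kc_ne_zero (L := L)]
  · rw [if_neg fun h => hj h.2]
    rw [avgW_congr (k - i) (g := fun _ => (0 : ℂ) • (0 : K)) fun d hd => by
      rw [grade, hlen d hd, if_neg hj]
      simp, avgW_smul, zero_smul, smul_zero]

/-- A combination applied to a weighted reversed product, by splits and contraction numbers. -/
theorem polyF_grade (b : L → (K →L[ℂ] K)) (v : K) (N : ℕ) (α β : ℕ → ℝ) (s : List L) :
    polyF a N α (grade b v N β) s = kc L ^ s.length •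
      ∑ r ∈ range (s.length + 1), ∑ l ∈ range N,
        if r + l < N ∧ s.length - r + l < N then
          ((α (r + l) * β (s.length - r + l) : ℝ) : ℂ) • avgW l fun d : List L =>
            (wordA a (s.take r ++ d) * wordB b (inv bar d ++ s.drop r)) v
        else 0 := by
  let G : ℕ → ℕ → K := fun i l =>
    avgW l fun d : List L => (wordA a (s.take i ++ d) * wordB b (inv bar d ++ s.drop i)) v
  have lhs : polyF a N α (grade b v N β) s =
      ∑ x ∈ ((range N).sigma fun k => range (k + 1)).filter
          (fun x => x.2 ≤ s.length ∧ s.length - x.2 + (x.1 - x.2) < N),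
        kc L ^ s.length • (((α x.1 * β (s.length - x.2 + (x.1 - x.2)) : ℝ) : ℂ) •
          G x.2 (x.1 - x.2)) := by
    rw [sum_filter, sum_sigma, polyF, Finset.sum_apply]
    refine sum_congr rfl fun k _ => ?_
    rw [Pi.smul_apply, chebF_grade a ha hbar habar, smul_sum]
    refine sum_congr rfl fun i _ => ?_
    split_ifs
    · simp only [smul_smul, Complex.ofReal_mul, G]
      congr 1
      ring
    · simp
  have rhs : (∑ r ∈ range (s.length + 1), ∑ l ∈ range N,
        if r + l < N ∧ s.length - r + l < N then
          ((α (r + l) * β (s.length - r + l) : ℝ) : ℂ) • G r l else 0) =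
      ∑ y ∈ ((range (s.length + 1)) ×ˢ range N).filter
          (fun y => y.1 + y.2 < N ∧ s.length - y.1 + y.2 < N),
        ((α (y.1 + y.2) * β (s.length - y.1 + y.2) : ℝ) : ℂ) • G y.1 y.2 := by
    rw [sum_filter, sum_product]
  rw [lhs, rhs, smul_sum]
  refine sum_nbij' (fun x => (x.2, x.1 - x.2)) (fun y => ⟨y.1 + y.2, y.1⟩) ?_ ?_ ?_ ?_ ?_
  · rintro ⟨k, i⟩ h
    simp only [mem_filter, mem_sigma, mem_range, mem_product] at h ⊢
    omega
  · rintro ⟨r, l⟩ h
    simp only [mem_filter, mem_sigma, mem_range, mem_product] at h ⊢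
    omega
  · rintro ⟨k, i⟩ h
    simp only [mem_filter, mem_sigma, mem_range] at h
    simp only [Sigma.mk.injEq, heq_eq_eq, and_true]
    omega
  · rintro ⟨r, l⟩ h
    simp
  · rintro ⟨k, i⟩ h
    simp only [mem_filter, mem_sigma, mem_range] at h
    have e : i + (k - i) = k := by omega
    simp only [e]

/-- Applied to the vacuum, a combination is a weighted product. -/
theorem polyF_vac (v : K) (N : ℕ) (α : ℕ → ℝ) (s : List L) :
    polyF a N α (vacF v) s.reverse = grade a v N α s := by
  rcases N with - | M
  · simp [polyF, grade]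
  have hvac : vacF v = grade (fun _ : L => (1 : K →L[ℂ] K)) v 1 (fun _ => 1) := by
    funext t
    cases t <;> simp [vacF, grade, wordB]
  have key : ∀ k, chebF a k (vacF v) s.reverse =
      if k = s.length then kc L ^ k • wordB a s v else 0 := by
    intro k
    rw [hvac, chebF_grade a ha hbar habar]
    by_cases hk : k = s.length
    · subst hk
      rw [if_pos rfl, sum_eq_single_of_mem s.length (by simp)]
      · simp only [List.length_reverse, Nat.sub_self, Nat.add_zero, le_refl, zero_lt_one,
          and_self, if_true, avgW]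
        simp [wordA, wordB, inv, List.take_of_length_le, List.drop_eq_nil_iff.2]
      · intro i hi hne
        rw [if_neg]
        simp only [List.length_reverse, mem_range] at hi ⊢
        omega
    · rw [if_neg hk]
      refine sum_eq_zero fun i hi => ?_
      rw [if_neg]
      simp only [List.length_reverse, mem_range] at hi ⊢
      omega
  rw [polyF, Finset.sum_apply]
  simp only [Pi.smul_apply, key, smul_ite, smul_zero, smul_smul]
  rw [sum_ite_eq', grade]
  by_cases h : s.length < M + 1
  · rw [if_pos (mem_range.2 h), if_pos h]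
  · rw [if_neg (fun h' => h (mem_range.1 h')), if_neg h]

end Vale.Agent.P096.Full.Key.FockWords
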