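import Vale.Agent.P096.Full.Key.Norm

/-!
P096, KEY: the two maps of one test and their residual, from SCALAR and FOCK.
-/

open scoped InnerProductSpace ComplexConjugate

namespace Vale.Agent.P096.Full.Key

universe u v

attribute [local instance] Letters.fin Letters.grp

section SumIdx

variable {F : Type v} {N : ℕ}

lemma sumIdx_congr [AddCommMonoid F] {f g : ℕ → ℕ → ℕ → ℕ → F}
    (h : ∀ n ∈ lens N, ∀ r ∈ slots n, ∀ r' ≤ n, ∀ l < N, f n r r' l = g n r r' l) :
    sumIdx N f = sumIdx N g :=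
  Finset.sum_congr rfl fun n hn => Finset.sum_congr rfl fun r hr =>
    Finset.sum_congr rfl fun r' hr' => Finset.sum_congr rfl fun l hl =>
      h n hn r hr r' (Nat.lt_succ_iff.1 (Finset.mem_range.1 hr')) l (Finset.mem_range.1 hl)

lemma sumIdx_add [AddCommMonoid F] (f g : ℕ → ℕ → ℕ → ℕ → F) :
    sumIdx N (fun n r r' l => f n r r' l + g n r r' l) = sumIdx N f + sumIdx N g := by
  simp only [sumIdx, Finset.sum_add_distrib]

lemma sumIdx_map [AddCommMonoid F] {F' : Type*} [AddCommMonoid F'] (T : F →+ F')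
    (f : ℕ → ℕ → ℕ → ℕ → F) :
    T (sumIdx N f) = sumIdx N fun n r r' l => T (f n r r' l) := by
  simp only [sumIdx, map_sum]

lemma sum_sumIdx [AddCommMonoid F] {κ : Type*} (t : Finset κ)
    (f : κ → ℕ → ℕ → ℕ → ℕ → F) :
    ∑ q ∈ t, sumIdx N (f q) = sumIdx N fun n r r' l => ∑ q ∈ t, f q n r r' l := by
  simp only [sumIdx]
  rw [Finset.sum_comm]
  refine Finset.sum_congr rfl fun n _ => ?_
  rw [Finset.sum_comm]
  refine Finset.sum_congr rfl fun r _ => ?_
  rw [Finset.sum_comm]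
  exact Finset.sum_congr rfl fun r' _ => Finset.sum_comm

lemma norm_sumIdx_le [SeminormedAddCommGroup F] {f : ℕ → ℕ → ℕ → ℕ → F}
    {g : ℕ → ℕ → ℕ → ℕ → ℝ}
    (h : ∀ n ∈ lens N, ∀ r ∈ slots n, ∀ r' ≤ n, ∀ l < N, ‖f n r r' l‖ ≤ g n r r' l) :
    ‖sumIdx N f‖ ≤ sumIdx N g :=
  norm_sum_le_of_le _ fun n hn => norm_sum_le_of_le _ fun r hr =>
    norm_sum_le_of_le _ fun r' hr' => norm_sum_le_of_le _ fun l hl =>
      h n hn r hr r' (Nat.lt_succ_iff.1 (Finset.mem_range.1 hr')) l (Finset.mem_range.1 hl)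

lemma sumIdx_mul (f : ℕ → ℕ → ℕ → ℕ → ℝ) (b : ℝ) :
    sumIdx N (fun n r r' l => f n r r' l * b) = sumIdx N f * b := by
  simp only [sumIdx, Finset.sum_mul]

end SumIdx

variable {K : Type u} [NormedAddCommGroup K] [InnerProductSpace ℂ K] [CompleteSpace K]
  {E : Letters K}

/-- The total weight of the matching splits. -/
noncomputable def diag (N : ℕ) : ℝ :=
  sumIdx N fun n r r' l => if r' = r then kap N n r r' l else 0

/-- The weighted sum of the left maps. -/
noncomputable def sumL (E : Letters K) (N : ℕ) (x : K →L[ℂ] K) : K :=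
  sumIdx N fun n r r' l => ((kap N n r r' l : ℝ) : ℂ) • Lmap E n r r' l x

/-- The weighted sum of the right maps. -/
noncomputable def sumR (E : Letters K) (N : ℕ) (y : K →L[ℂ] K) : K :=
  sumIdx N fun n r r' l => ((kap N n r r' l : ℝ) : ℂ) • Lam E n r r' l y

/-- The left map of a test. -/
noncomputable def mapL (E : Letters K) (N : ℕ) (x : K →L[ℂ] K) : K :=
  ((diag N : ℝ) : ℂ)⁻¹ • sumL E N x

/-- The right map of a test. -/
noncomputable def mapR (E : Letters K) (N : ℕ) (y : K →L[ℂ] K) : K :=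
  ((diag N : ℝ) : ℂ)⁻¹ • sumR E N y

lemma mapL_lin (N : ℕ) (x y : K →L[ℂ] K) (t : ℂ) :
    mapL E N (t • x + y) = t • mapL E N x + mapL E N y := by
  simp only [mapL, sumL, sumIdx, Lmap_lin, smul_add, Finset.sum_add_distrib, Finset.smul_sum,
    smul_smul]
  congr 1
  simp only [mul_comm, mul_left_comm]

lemma mapR_lin (N : ℕ) (x y : K →L[ℂ] K) (t : ℂ) :
    mapR E N (t • x + y) = t • mapR E N x + mapR E N y := by
  simp only [mapR, sumR, sumIdx, Lam_lin, smul_add, Finset.sum_add_distrib, Finset.smul_sum,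
    smul_smul]
  congr 1
  simp only [mul_comm, mul_left_comm]

lemma mapL_equi (N : ℕ) {x : K →L[ℂ] K} (hx : x ∈ E.A) (i j : E.ι) :
    mapL E N (E.a i * x * E.a j) = E.a i (E.b j (mapL E N x)) := by
  simp only [mapL, sumL, sumIdx, Lmap_equi _ _ _ _ hx, map_smul, map_sum]

lemma mapR_equi (N : ℕ) {y : K →L[ℂ] K} (hy : y ∈ E.B) (i j : E.ι) :
    mapR E N (E.b j * y * E.b i) = E.a i (E.b j (mapR E N y)) := by
  simp only [mapR, sumR, sumIdx, Lam_equi _ _ _ _ hy, map_smul, map_sum]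

variable {γ ν C c : ℝ} {N : ℕ}

lemma norm_normalise_le (hc : 0 < c) (hlog : 0 < Real.log N) (hdiag : c * Real.log N ≤ diag N)
    {z : K} {b : ℝ} (hC : 0 ≤ C) (hb : 0 ≤ b) (hz : ‖z‖ ≤ C * Real.log N * b) :
    ‖((diag N : ℝ) : ℂ)⁻¹ • z‖ ≤ C / c * b := by
  have hd : 0 < diag N := lt_of_lt_of_le (mul_pos hc hlog) hdiag
  rw [norm_smul, norm_inv, Complex.norm_real, Real.norm_eq_abs, abs_of_pos hd,
    inv_mul_le_iff₀ hd]
  refine hz.trans ?_
  calc C * Real.log N * b = c * Real.log N * (C / c * b) := by field_simp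
    _ ≤ diag N * (C / c * b) := mul_le_mul_of_nonneg_right hdiag (by positivity)

lemma mapL_le (D : Defects E γ ν) (hc : 0 < c) (hC : 0 ≤ C) (hlog : 0 < Real.log N)
    (hdiag : c * Real.log N ≤ diag N)
    (habs : sumIdx N (fun n r r' l => |kap N n r r' l|) ≤ C * Real.log N)
    {x : K →L[ℂ] K} (hx : x ∈ E.A) : ‖mapL E N x‖ ≤ C / c * (ν * ‖x‖) := by
  have hν := D.ν_nonneg
  refine norm_normalise_le hc hlog hdiag hC (by positivity) ?_
  refine (norm_sumIdx_le (g := fun n r r' l => |kap N n r r' l| * (ν * ‖x‖))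
    fun n _ r _ r' _ l _ => ?_).trans ?_
  · rw [norm_smul, Complex.norm_real, Real.norm_eq_abs]
    exact mul_le_mul_of_nonneg_left (Lmap_le D n r r' l hx) (abs_nonneg _)
  · rw [sumIdx_mul]
    exact mul_le_mul_of_nonneg_right habs (by positivity)

lemma mapR_le (D : Defects E γ ν) (hc : 0 < c) (hC : 0 ≤ C) (hlog : 0 < Real.log N)
    (hdiag : c * Real.log N ≤ diag N)
    (habs : sumIdx N (fun n r r' l => |kap N n r r' l|) ≤ C * Real.log N)
    {y : K →L[ℂ] K} (hy : y ∈ E.B) : ‖mapR E N y‖ ≤ C / c * (ν * ‖y‖) := by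
  have hν := D.ν_nonneg
  refine norm_normalise_le hc hlog hdiag hC (by positivity) ?_
  refine (norm_sumIdx_le (g := fun n r r' l => |kap N n r r' l| * (ν * ‖y‖))
    fun n _ r _ r' _ l _ => ?_).trans ?_
  · rw [norm_smul, Complex.norm_real, Real.norm_eq_abs]
    exact mul_le_mul_of_nonneg_left (Lam_le D n r r' l hy) (abs_nonneg _)
  · rw [sumIdx_mul]
    exact mul_le_mul_of_nonneg_right habs (by positivity)

/-- The weighted pairing with all coefficients. -/
noncomputable def total (E : Letters K) (N : ℕ) (η : K) : ℂ :=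
  sumIdx N fun n r r' l => ((kap N n r r' l : ℝ) : ℂ) * pairing E n r r' l η

/-- The coefficient of one split at one angle. -/
noncomputable def splitCoef (N : ℕ) (φ : ℝ) (n r' l : ℕ) : ℝ :=
  if r' + l < N ∧ n - r' + l < N then amp φ (r' + l) * amp φ (n - r' + l) else 0

lemma kap_eq (N n r r' l : ℕ) :
    kap N n r r' l = (numAng N : ℝ)⁻¹ * ∑ q ∈ Finset.range (numAng N),
      coef (ang N q) n r * splitCoef N (ang N q) n r' l := by
  simp only [kap, coef, splitCoef]
  split_ifs with h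
  · simp only [Finset.mul_sum]
    refine Finset.sum_congr rfl fun q _ => ?_
    ring
  · simp

lemma inner_avgW {L : Type*} [Fintype L] (z : K) (n : ℕ) (f : List L → K) :
    ⟪z, avgW n f⟫_ℂ = avgW n fun s => ⟪z, f s⟫_ℂ :=
  avgW_map (innerSL ℂ z).toLinearMap n f

/-- The free test bounds the weighted pairing. -/
theorem total_le (hF : FockSpec.{u}) (hν : 0 ≤ ν) (hC : 0 ≤ C) (hlog : 0 ≤ Real.log N)
    (hpoly : ∀ φ : ℝ, (poly N φ).natDegree ≤ N ∧
      ∀ t ∈ Set.Icc (-2 : ℝ) 2, |(poly N φ).eval t| ≤ C)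
    (hsq : ∑ n ∈ lens N, ∑ _r ∈ slots n, ((n : ℝ) ^ 2)⁻¹ ≤ C * Real.log N)
    (hT : TestLe E.A E.B E.v ν) (η : K) :
    ‖total E N η‖ ≤ 9 * ‖η‖ * Real.sqrt (C * Real.log N) * (ν * (C * C)) := by
  set T := 2 * N + 1 with hTdef
  let X : ℝ → Fock K (Alph E) T := fun φ =>
    (Polynomial.aeval (semiL (L := T) (valA E)) ((poly N φ).map (algebraMap ℝ ℂ)) *
        Polynomial.aeval (semiR (L := T) (valB E)) ((poly N φ).map (algebraMap ℝ ℂ)) -
      Polynomial.aeval (semiR (L := T) (valB E)) ((poly N φ).map (algebraMap ℝ ℂ)) *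
        Polynomial.aeval (semiL (L := T) (valA E)) ((poly N φ).map (algebraMap ℝ ℂ)))
      (vac (Alph E) T E.v)
  let z : ℝ → ℂ := fun φ => ⟪testVec E N T φ η, X φ⟫_ℂ
  have hz : ∀ φ, ‖z φ‖ ≤ 9 * ‖η‖ * Real.sqrt (C * Real.log N) * (ν * (C * C)) := by
    intro φ
    have hX : ‖X φ‖ ≤ ν * (C * C) :=
      hT (Alph E) (bar E) (valA E) (valB E) T (poly N φ) (poly N φ) C C
        (fun x => ⟨bar_bar E x, bar_ne E x⟩) (fun x => valA_spec E x) (fun x => valB_spec E x)
        (hpoly φ).2 (hpoly φ).2 (by have := (hpoly φ).1; omega)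
    have hW : ‖testVec E N T φ η‖ ≤ 9 * ‖η‖ * Real.sqrt (C * Real.log N) := by
      refine (pow_le_pow_iff_left₀ (norm_nonneg _) (by positivity) two_ne_zero).1 ?_
      refine (testVec_sq_le N T (by omega) φ η).trans ?_
      rw [mul_pow, mul_pow, Real.sq_sqrt (mul_nonneg hC hlog)]
      calc 81 * ‖η‖ ^ 2 * ∑ n ∈ lens N, ∑ _r ∈ slots n, ((n : ℝ) ^ 2)⁻¹
          ≤ 81 * ‖η‖ ^ 2 * (C * Real.log N) := mul_le_mul_of_nonneg_left hsq (by positivity)
        _ = _ := by ring
    exact (norm_inner_le_norm _ _).trans (mul_le_mul hW hX (norm_nonneg _) (by positivity))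
  have hzeq : ∀ φ, z φ = sumIdx N fun n r r' l =>
      ((coef φ n r * splitCoef N φ n r' l : ℝ) : ℂ) * pairing E n r r' l η := by
    intro φ
    show ⟪testVec E N T φ η, X φ⟫_ℂ = _
    rw [inner_testVec N T (by omega) φ η (X φ) (fun n s => ∑ r' ∈ Finset.range (n + 1),
      ∑ l ∈ Finset.range N, ((splitCoef N φ n r' l : ℝ) : ℂ) •
        avgW l fun c => xv E r' s c)]
    · simp only [sumIdx]
      refine Finset.sum_congr rfl fun n _ => ?_
      simp only [level, sum_inner]
      rw [avgW_sum]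
      refine Finset.sum_congr rfl fun r _ => ?_
      simp only [inner_smul_left, Complex.conj_ofReal, inner_sum, inner_smul_right, inner_avgW,
        Finset.mul_sum, avgW_sum]
      refine Finset.sum_congr rfl fun r' _ => Finset.sum_congr rfl fun l _ => ?_
      rw [pairing, Complex.ofReal_mul, mul_assoc]
      simp only [← smul_eq_mul, avgW_smul]
      exact smul_comm _ _ _
    · intro n hn s _
      refine (hF K (Alph E) (bar E) (valA E) (valB E) E.v N T (amp φ) (amp φ) (by omega)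
        (bar_bar E) (fun x => (valA_spec E x).2) (fun x => (valB_spec E x).2) n hn s).trans ?_
      congr 1
      refine Finset.sum_congr rfl fun r' _ => Finset.sum_congr rfl fun l _ => ?_
      simp only [splitCoef]
      split_ifs with h
      · rfl
      · simp
  have htot : total E N η =
      ((numAng N : ℝ) : ℂ)⁻¹ * ∑ q ∈ Finset.range (numAng N), z (ang N q) := by
    simp only [hzeq, sum_sumIdx]
    rw [← AddMonoidHom.coe_mulLeft, sumIdx_map]
    refine sumIdx_congr fun n _ r _ r' _ l _ => ?_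
    rw [kap_eq, AddMonoidHom.coe_mulLeft, ← Finset.sum_mul, Complex.ofReal_mul, Complex.ofReal_inv,
      Complex.ofReal_sum, mul_assoc]
  rw [htot, norm_mul, norm_inv, Complex.norm_real, Real.norm_eq_abs, Nat.abs_cast]
  rw [inv_mul_le_iff₀ (by simp [numAng]; positivity)]
  refine (norm_sum_le_of_le _ fun q _ => hz (ang N q)).trans_eq ?_
  simp [Finset.sum_const]

lemma four_eval {F : Type v} [AddCommGroup F] [Module ℂ F] (f : Alph E → Alph E → F)
    (g : (K →L[ℂ] K) → (K →L[ℂ] K) → (K →L[ℂ] K) → (K →L[ℂ] K) → F)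
    (h : ∀ x y, f x y = g (valA E x) (valB E x) (valA E y) (valB E y)) :
    four E f = g E.X E.X' E.Y E.Y' - g E.X E.X' 1 1 - (g 1 1 E.Y E.Y' - g 1 1 1 1) := by
  rw [four_congr E h]
  have v0 : ∀ x : Alph E, x.1.1 = 0 → valA E x = E.X ∧ valB E x = E.X' := fun x hx => by
    simp [valA, valB, hx]
  have v1 : ∀ x : Alph E, x.1.1 = 1 → valA E x = E.Y ∧ valB E x = E.Y' := fun x hx => by
    simp [valA, valB, hx]
  have v2 : ∀ x : Alph E, x.1.1 = 2 → valA E x = 1 ∧ valB E x = 1 := fun x hx => by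
    simp [valA, valB, hx]
  have inner' : ∀ a a' : K →L[ℂ] K,
      avgT E 1 (fun y => g a a' (valA E y) (valB E y)) -
        avgT E 2 (fun y => g a a' (valA E y) (valB E y)) = g a a' E.Y E.Y' - g a a' 1 1 := by
    intro a a'
    rw [avgT_congr E (t := 1) (g := fun _ => g a a' E.Y E.Y') fun y hy => by rw [(v1 y hy).1, (v1 y hy).2],
      avgT_congr E (t := 2) (g := fun _ => g a a' 1 1) fun y hy => by rw [(v2 y hy).1, (v2 y hy).2],
      avgT_const, avgT_const]
  simp only [four, inner']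
  rw [avgT_congr E (t := 0) (g := fun _ => g E.X E.X' E.Y E.Y' - g E.X E.X' 1 1)
      fun x hx => by rw [(v0 x hx).1, (v0 x hx).2],
    avgT_congr E (t := 2) (g := fun _ => g 1 1 E.Y E.Y' - g 1 1 1 1)
      fun x hx => by rw [(v2 x hx).1, (v2 x hx).2],
    avgT_const, avgT_const]

lemma four_sumIdx (f : Alph E → Alph E → ℕ → ℕ → ℕ → ℕ → ℂ) :
    four E (fun x y => sumIdx N (f x y)) =
      sumIdx N fun n r r' l => four E fun x y => f x y n r r' l := by
  have havg : ∀ (t : Fin 4) (g : Alph E → ℕ → ℕ → ℕ → ℕ → ℂ),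
      avgT E t (fun x => sumIdx N (g x)) = sumIdx N fun n r r' l => avgT E t fun x => g x n r r' l :=
    fun t g => by
      simp only [avgT, smul_eq_mul, sum_sumIdx]
      exact sumIdx_map (AddMonoidHom.mulLeft _) _
  have hsub : ∀ g g' : ℕ → ℕ → ℕ → ℕ → ℂ,
      sumIdx N g - sumIdx N g' = sumIdx N fun n r r' l => g n r r' l - g' n r r' l := fun g g' => by
    simp only [sumIdx, Finset.sum_sub_distrib]
  simp only [four, havg, hsub]

/-- The value of the two maps at two letters. -/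
noncomputable def value (E : Letters K) (N : ℕ) (x x' y y' : K →L[ℂ] K) : K :=
  com x y' E.v + mapL E N (x * y) + mapR E N (y' * x')

/-- The vector seen by the four combinations of the slot letters. -/
noncomputable def core (E : Letters K) (N : ℕ) : K :=
  E.Y' (E.X (value E N E.X E.X' E.Y E.Y')) - E.X (value E N E.X E.X' 1 1) -
    E.Y' (value E N 1 1 E.Y E.Y') + value E N 1 1 1 1

lemma inner_apply_symm {x : K →L[ℂ] K} (h : star x = x) (z w : K) :
    ⟪x z, w⟫_ℂ = ⟪z, x w⟫_ℂ := by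
  rw [← inner_star_apply, h]

lemma four_model (hd : diag N ≠ 0) (η : K) :
    four E (fun x y => ⟪valA E x (valB E y η),
      sumIdx N fun n r r' l => ((kap N n r r' l : ℝ) : ℂ) • model E n r r' l x y⟫_ℂ) =
      ((diag N : ℝ) : ℂ) * ⟪η, core E N⟫_ℂ := by
  have hd' : ((diag N : ℝ) : ℂ) ≠ 0 := by exact_mod_cast hd
  have hsum : ∀ x y : Alph E,
      (sumIdx N fun n r r' l => ((kap N n r r' l : ℝ) : ℂ) • model E n r r' l x y) =
        ((diag N : ℝ) : ℂ) • value E N (valA E x) (valB E x) (valA E y) (valB E y) := by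
    intro x y
    simp only [model, smul_add, sumIdx_add, value, mapL, mapR, smul_inv_smul₀ hd', sumL, sumR]
    congr 2
    simp only [diag, sumIdx, Complex.ofReal_sum, Finset.sum_smul]
    refine Finset.sum_congr rfl fun n _ => Finset.sum_congr rfl fun r _ =>
      Finset.sum_congr rfl fun r' _ => Finset.sum_congr rfl fun l _ => ?_
    split_ifs <;> simp
  rw [four_eval (g := fun x x' y y' =>
    ((diag N : ℝ) : ℂ) * ⟪x (y' η), value E N x x' y y'⟫_ℂ) _ fun x y => by
      rw [hsum, inner_smul_right]]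
  obtain ⟨⟨hX, -⟩, -, -, ⟨hY, -⟩⟩ := E.symm
  simp only [core, inner_sub_right, inner_add_right, one_apply', ← inner_apply_symm hX,
    ← inner_apply_symm hY]
  ring
where
  one_apply' {z : K} : (1 : K →L[ℂ] K) z = z := rfl

/-- The weighted pairing sees the maps up to the operator defect. -/
theorem total_est (D : Defects E γ ν) (hd : diag N ≠ 0) (hN : 64 ≤ N)
    (habs : sumIdx N (fun n r r' l => |kap N n r r' l|) ≤ C * Real.log N)
    (hsep : ∀ n r r' l : ℕ, n ∈ lens N → r ∈ slots n → r' ≤ n → l < N → kap N n r r' l ≠ 0 →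
      r' = r ∨ r + 2 ≤ r' ∨ r' + 2 ≤ r) (η : K) :
    ‖256 * total E N η - ((diag N : ℝ) : ℂ) * ⟪η, core E N⟫_ℂ‖ ≤
      C * Real.log N * (12 * (γ * ‖η‖ * ν * N)) := by
  have hν := D.ν_nonneg
  have hγ := D.γ_nonneg
  have hfour : four E (fun x y => ⟪valA E x (valB E y η),
      sumIdx N fun n r r' l => ((kap N n r r' l : ℝ) : ℂ) • model E n r r' l x y⟫_ℂ) =
      sumIdx N fun n r r' l => ((kap N n r r' l : ℝ) : ℂ) * four E (fun x y =>
        ⟪valA E x (valB E y η), model E n r r' l x y⟫_ℂ) := by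
    refine Eq.trans (four_congr E fun x y => ?_) ((four_sumIdx (N := N) fun x y n r r' l =>
      ⟪valA E x (valB E y η), ((kap N n r r' l : ℝ) : ℂ) • model E n r r' l x y⟫_ℂ).trans ?_)
    · exact sumIdx_map (innerSL ℂ (valA E x (valB E y η))).toLinearMap.toAddMonoidHom _
    refine sumIdx_congr fun n _ r _ r' _ l _ => ?_
    simp only [LinearMap.toAddMonoidHom_coe, ContinuousLinearMap.coe_coe, innerSL_apply_apply,
      inner_smul_right, ← smul_eq_mul, four, avgT_smul, ← smul_sub]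
  rw [← four_model hd η, hfour, total, sumIdx, sumIdx]
  simp only [Finset.mul_sum, ← Finset.sum_sub_distrib]
  refine (norm_sumIdx_le (g := fun n r r' l => |kap N n r r' l| * (12 * (γ * ‖η‖ * ν * N)))
    fun n hn r hr r' hr' l hl => ?_).trans ?_
  · rw [show (256 : ℂ) * ((kap N n r r' l : ℝ) * pairing E n r r' l η) -
      (kap N n r r' l : ℝ) * four E (fun x y =>
        ⟪valA E x (valB E y η), model E n r r' l x y⟫_ℂ) =
      ((kap N n r r' l : ℝ) : ℂ) * (256 * pairing E n r r' l η - four E (fun x y =>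
        ⟪valA E x (valB E y η), model E n r r' l x y⟫_ℂ)) by ring,
      norm_mul, Complex.norm_real, Real.norm_eq_abs]
    rcases eq_or_ne (kap N n r r' l) 0 with h0 | h0
    · simp [h0]
    refine mul_le_mul_of_nonneg_left ?_ (abs_nonneg _)
    have hres := hsep n r r' l hn hr hr' hl h0
    simp only [lens, slots, Finset.mem_Ico, Finset.mem_Icc] at hn hr
    obtain ⟨i, rfl⟩ : ∃ i, r = i + 2 := ⟨r - 2, by omega⟩
    obtain ⟨k, rfl⟩ : ∃ k, n = i + (4 + k) := ⟨n - (i + 4), by omega⟩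
    refine (pairing_est D i k l r' hr' hres η).trans ?_
    have hl' : (l : ℝ) ≤ N := by exact_mod_cast hl.le
    have hN' : (64 : ℝ) ≤ N := by exact_mod_cast hN
    have h12 : γ * ‖η‖ * (2 * ν * l + 12 * ν) ≤ γ * ‖η‖ * (ν * (3 * N)) :=
      mul_le_mul_of_nonneg_left (by nlinarith) (by positivity)
    linarith
  · rw [sumIdx_mul]
    exact mul_le_mul_of_nonneg_right habs (by positivity)

lemma residual_eq (N : ℕ) :
    E.residual (mapL E N) (mapR E N) = E.X (E.Y' (core E N)) +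
      (E.X (E.Y' (E.X (value E N E.X E.X' 1 1))) - E.Y' (value E N E.X E.X' 1 1)) := by
  obtain ⟨⟨-, hX⟩, -, -, ⟨-, hY⟩⟩ := E.symm
  have eX : ∀ z, E.X (E.X z) = z := fun z => DFunLike.congr_fun hX z
  have eY : ∀ z, E.Y' (E.Y' z) = z := fun z => DFunLike.congr_fun hY z
  have e1 : ∀ x : K →L[ℂ] K, com x 1 = 0 := fun x => by simp [com]
  have e2 : ∀ x : K →L[ℂ] K, com 1 x = 0 := fun x => by simp [com]
  have e3 : (E.X * E.Y') (mapL E N 1 + mapR E N 1) =
      E.X (E.Y' (mapL E N 1 + mapR E N 1)) := rfl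
  rw [Letters.residual, e3]
  simp only [core, value, e1, e2, zero_apply', zero_add, mul_one, one_mul]
  simp only [map_sub, map_add, eX, eY, com]
  abel
where
  zero_apply' {z : K} : (0 : K →L[ℂ] K) z = 0 := rfl

/-- KEY from SCALAR and FOCK. -/
theorem key_of (hS : ScalarSpec) (hF : FockSpec.{u}) : KeySpec.{u} := by
  obtain ⟨C, c, N₀, hc, hC, hpoly, hsep, hdiag, habs, hsq⟩ := hS
  set M := Real.sqrt (Real.log (max N₀ 64 : ℕ)) with hM
  set C' := 256 * 9 * (C * C) * Real.sqrt C / c + 14 * C / c + M + 1 with hC'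
  have p1 : 0 ≤ 256 * 9 * (C * C) * Real.sqrt C / c := by positivity
  have p2 : 0 ≤ 14 * C / c := by positivity
  have p3 : 0 ≤ M := Real.sqrt_nonneg _
  have hC'0 : 0 ≤ C' := by linarith
  refine ⟨C', hC'0, ?_⟩
  intro K _ _ _ E γ ν N hγ hν hN hop hvec hX hY hT
  have D : Defects E γ ν := ⟨hγ, hν.le, hop, hvec, hX, hY⟩
  obtain ⟨⟨sX, -⟩, ⟨sX', -⟩, -, ⟨sY', -⟩⟩ := E.symm
  obtain ⟨⟨-, qX⟩, ⟨-, qX'⟩, -, ⟨-, qY'⟩⟩ := E.symm
  have nX : ‖E.X‖ ≤ 1 := norm_le_one (by rw [sX, qX])
  have nX' : ‖E.X'‖ ≤ 1 := norm_le_one (by rw [sX', qX'])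
  have nY' : ‖E.Y'‖ ≤ 1 := norm_le_one (by rw [sY', qY'])
  have hlog : 0 < Real.log N := Real.log_pos (by exact_mod_cast (by omega : 1 < N))
  have hsqrt : 0 < Real.sqrt (Real.log N) := Real.sqrt_pos.2 hlog
  by_cases hN0 : N < N₀
  · refine ⟨fun _ => 0, fun _ => 0, fun x _ y _ t => by simp, fun x _ y _ t => by simp,
      fun x _ => by simp; positivity, fun y _ => by simp; positivity,
      fun x _ i j => by simp, fun y _ i j => by simp, ?_⟩
    have h1 : ‖E.residual (fun _ => 0) (fun _ => 0)‖ ≤ ν := by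
      simpa [Letters.residual, com] using D.vec_le_one E.memA.1 E.memB.2.1 nX nY'
    refine h1.trans ?_
    have h2 : Real.sqrt (Real.log N) ≤ C' := by
      refine le_trans (Real.sqrt_le_sqrt (Real.log_le_log (by exact_mod_cast (by omega : 0 < N))
        (Nat.cast_le.2 (by omega : N ≤ max N₀ 64)))) ?_
      rw [← hM]; linarith
    calc ν = ν * Real.sqrt (Real.log N) * (1 / Real.sqrt (Real.log N)) := by field_simp
      _ ≤ C' * ν * (1 / Real.sqrt (Real.log N) + N * γ) := by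
        refine mul_le_mul ?_ (le_add_of_nonneg_right (by positivity)) (by positivity)
          (by positivity)
        rw [mul_comm]; exact mul_le_mul_of_nonneg_right h2 hν.le
  have hd : c * Real.log N ≤ diag N := hdiag N (not_lt.1 hN0)
  have hd0 : 0 < diag N := lt_of_lt_of_le (mul_pos hc hlog) hd
  have hCc : C / c ≤ C' := by
    have : C / c ≤ 14 * C / c := by rw [mul_div_assoc]; linarith [div_nonneg hC hc.le]
    linarith
  have bL : ∀ x ∈ E.A, ‖mapL E N x‖ ≤ C / c * (ν * ‖x‖) := fun x hx =>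
    mapL_le D hc hC hlog hd (habs N hN) hx
  have bR : ∀ y ∈ E.B, ‖mapR E N y‖ ≤ C / c * (ν * ‖y‖) := fun y hy =>
    mapR_le D hc hC hlog hd (habs N hN) hy
  refine ⟨mapL E N, mapR E N, fun x _ y _ t => mapL_lin N x y t, fun x _ y _ t => mapR_lin N x y t,
    fun x hx => (bL x hx).trans ?_, fun y hy => (bR y hy).trans ?_,
    fun x hx i j => mapL_equi N hx i j, fun y hy i j => mapR_equi N hy i j, ?_⟩
  · rw [mul_assoc C']; exact mul_le_mul_of_nonneg_right hCc (by positivity)
  · rw [mul_assoc C']; exact mul_le_mul_of_nonneg_right hCc (by positivity)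
  -- the core vector is small
  set R₀ := core E N with hR
  have hcore : ‖R₀‖ ≤
      ν * (256 * 9 * (C * C) * Real.sqrt C / c * (1 / Real.sqrt (Real.log N)) +
        12 * C / c * (N * γ)) := by
    have e1 := total_le hF hν.le hC hlog.le (fun φ => hpoly N φ) (hsq N hN) hT R₀
    have e2 := total_est D hd0.ne' hN (habs N hN) (fun n r r' l => hsep N n r r' l) R₀
    have e3 : ‖((diag N : ℝ) : ℂ) * ⟪R₀, R₀⟫_ℂ‖ = diag N * ‖R₀‖ ^ 2 := by
      rw [norm_mul, Complex.norm_real, Real.norm_eq_abs, abs_of_pos hd0,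
        inner_self_eq_norm_sq_to_K]
      simp
    have e4 := norm_le_norm_add_norm_sub' (((diag N : ℝ) : ℂ) * ⟪R₀, R₀⟫_ℂ) (256 * total E N R₀)
    rw [norm_sub_rev] at e4
    rw [e3, norm_mul, Complex.norm_ofNat] at e4
    rw [← hR] at e2
    rcases (norm_nonneg R₀).eq_or_lt with h0 | h0
    · rw [← h0]; positivity
    rw [Real.sqrt_mul hC] at e1
    have e5 : c * Real.log N * ‖R₀‖ * ‖R₀‖ ≤ ‖R₀‖ * (ν * (256 * 9 * (C * C) * Real.sqrt C *
        Real.sqrt (Real.log N) + 12 * C * Real.log N * (N * γ))) := by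
      have : c * Real.log N * ‖R₀‖ ^ 2 ≤ diag N * ‖R₀‖ ^ 2 :=
        mul_le_mul_of_nonneg_right hd (by positivity)
      linarith
    have e6 : ‖R₀‖ * (c * Real.log N) ≤ ν * (256 * 9 * (C * C) * Real.sqrt C *
        Real.sqrt (Real.log N) + 12 * C * Real.log N * (N * γ)) :=
      le_of_mul_le_mul_left (by linarith) h0
    refine ((le_div_iff₀ (mul_pos hc hlog)).2 e6).trans_eq ?_
    have hs : Real.sqrt (Real.log N) * Real.sqrt (Real.log N) = Real.log N :=
      Real.mul_self_sqrt hlog.le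
    field_simp
    linear_combination (256 * 9 * (C * C) * Real.sqrt C) * hs
  set V := value E N E.X E.X' 1 1 with hV
  have nV : ‖V‖ ≤ 2 * (C / c) * ν := by
    have : V = mapL E N E.X + mapR E N E.X' := by simp [hV, value, com]
    rw [this]
    refine (norm_add_le _ _).trans ((add_le_add (bL _ E.memA.1) (bR _ E.memB.1)).trans ?_)
    have h1 := mul_le_mul_of_nonneg_left (mul_le_mul_of_nonneg_left nX hν.le)
      (div_nonneg hC hc.le)
    have h2 := mul_le_mul_of_nonneg_left (mul_le_mul_of_nonneg_left nX' hν.le)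
      (div_nonneg hC hc.le)
    linarith
  have hmove : ‖E.X (E.Y' (E.X V)) - E.Y' V‖ ≤ γ * ‖V‖ := by
    have eX : E.X (E.X (E.Y' V)) = E.Y' V := DFunLike.congr_fun qX (E.Y' V)
    rw [← eX, ← map_sub]
    refine (norm_apply_le_self nX _).trans ?_
    rw [norm_sub_rev]
    exact D.op_le' E.memA.1 E.memB.2.1 nX nY' V
  rw [residual_eq]
  refine (norm_add_le _ _).trans ((add_le_add (((norm_apply_le_self nX _).trans
    (norm_apply_le_self nY' _)).trans hcore)
    (hmove.trans (mul_le_mul_of_nonneg_left nV hγ))).trans ?_)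
  have h1N : γ ≤ N * γ := le_mul_of_one_le_left hγ (by exact_mod_cast (by omega : 1 ≤ N))
  have hs0 : 0 ≤ 1 / Real.sqrt (Real.log N) := by positivity
  have t1 := mul_le_mul_of_nonneg_left h1N (by positivity : 0 ≤ ν * (2 * (C / c)))
  have t2 := mul_nonneg (mul_nonneg hν.le hs0) (by linarith : 0 ≤ 14 * C / c + M + 1)
  have t3 := mul_nonneg (mul_nonneg hν.le (mul_nonneg (Nat.cast_nonneg N) hγ))
    (by linarith : 0 ≤ 256 * 9 * (C * C) * Real.sqrt C / c + M + 1)
  rw [hC']
  linear_combination t1 + t2 + t3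

end Vale.Agent.P096.Full.Key
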