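import Vale.Agent.P096.Full.Key.Pair

/-!
P096, KEY: the test vector, its norm and its pairing with the commutator.
-/

open scoped InnerProductSpace ComplexConjugate

namespace Vale.Agent.P096.Full.Key

universe u

attribute [local instance] Letters.fin Letters.grp

variable {K : Type u} [NormedAddCommGroup K] [InnerProductSpace ℂ K] [CompleteSpace K]
  {E : Letters K}

lemma norm_chi_le (x : Alph E) : ‖chi E x‖ ≤ 1 := by
  simp only [chi]; split_ifs <;> simp

lemma norm_rho_le (x : Alph E) : ‖rho E x‖ ≤ 1 := by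
  simp only [rho]; split_ifs <;> simp

lemma norm_sig_le (x : Alph E) : ‖sig E x‖ ≤ 1 := by
  simp only [sig]; split_ifs <;> simp

lemma norm_wt4_le (s : List (Alph E)) : ‖wt4 E s‖ ≤ 1 := by
  match s with
  | g :: x :: y :: h :: V =>
    simp only [wt4, norm_mul]
    have := norm_chi_le g; have := norm_rho_le x; have := norm_sig_le y; have := norm_chi_le h
    calc ‖chi E g‖ * ‖rho E x‖ * ‖sig E y‖ * ‖chi E h‖ ≤ 1 * 1 * 1 * 1 := by gcongr
      _ = 1 := by norm_num
  | [] => simp [wt4]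
  | [_] => simp [wt4]
  | [_, _] => simp [wt4]
  | [_, _, _] => simp [wt4]

lemma norm_vecW_le (r : ℕ) (s : List (Alph E)) (η : K) : ‖vecW E r s η‖ ≤ ‖η‖ := by
  rw [vecW, norm_smul]
  refine (mul_le_mul (norm_wt4_le _) ((norm_apply_le_self (norm_le_one (wA_spec E _).2.1) _).trans
    (norm_apply_le_self (norm_le_one (wB_spec E _).2.1) η)) (norm_nonneg _) zero_le_one).trans ?_
  rw [one_mul]

/-- The weight of the two letters after a slot. -/
noncomputable def tailWt (E : Letters K) (g : Alph E) : List (Alph E) → ℂ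
  | y :: h :: _ => chi E g * sig E y * chi E h
  | _ => 0

lemma wt4_eq_tailWt (g x : Alph E) :
    ∀ w : List (Alph E), wt4 E (g :: x :: w) = rho E x * tailWt E g w
  | y :: h :: V => by simp only [wt4, tailWt]; ring
  | [] => by simp [wt4, tailWt]
  | [_] => by simp [wt4, tailWt]

lemma conj_wt4 : ∀ s : List (Alph E), conj (wt4 E s) = wt4 E s
  | g :: x :: y :: h :: V => by simp only [wt4, map_mul, conj_chi, conj_rho, conj_sig]
  | [] => by simp [wt4]
  | [_] => by simp [wt4]
  | [_, _] => by simp [wt4]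
  | [_, _, _] => by simp [wt4]

lemma wt4_cons_mul_rho (x : Alph E) :
    ∀ w : List (Alph E), wt4 E (x :: w) * rho E x = 0 := by
  have hc : chi E x * rho E x = 0 := by
    simp only [chi, rho]
    split_ifs <;> simp_all
  intro w
  match w with
  | a :: b :: c :: V =>
    simp only [wt4]; linear_combination (rho E a * sig E b * chi E c) * hc
  | [] => simp [wt4]
  | [_] => simp [wt4]
  | [_, _] => simp [wt4]

/-- Test vectors of different slots are orthogonal. -/
theorem avg_inner_vecW {n r r' : ℕ} (hr : 2 ≤ r) (hlt : r < r') (hn : r' ≤ n) (η : K) :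
    avgW n (fun s : List (Alph E) => ⟪vecW E r s η, vecW E r' s η⟫_ℂ) = 0 := by
  obtain ⟨i, rfl⟩ : ∃ i, r = i + 2 := ⟨r - 2, by omega⟩
  obtain ⟨k, rfl⟩ : ∃ k, n = i + (1 + (1 + k)) := ⟨n - (i + 2), by omega⟩
  obtain ⟨d, rfl⟩ : ∃ d, r' = i + (2 + d) := ⟨r' - (i + 2), by omega⟩
  rw [avgW_split]
  refine (avgW_congr fun P hP => ?_).trans (avgW_zero i)
  rw [avgW_split]
  refine (avgW_congr fun u hu => ?_).trans (avgW_zero 1)
  obtain ⟨g, rfl⟩ := List.length_eq_one_iff.1 hu
  rw [avgW_split]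
  let G : List (Alph E) → ℂ := fun w => tailWt E g w * (if d = 1 then 0 else
    wt4 E (w.drop (d - 2)) * ⟪wB E w η, wA E (w.take d) (wB E (w.drop d) η)⟫_ℂ)
  have hshape : ∀ (x : Alph E) (w : List (Alph E)),
      ⟪vecW E (i + 2) (P ++ ([g] ++ ([x] ++ w))) η,
        vecW E (i + (2 + d)) (P ++ ([g] ++ ([x] ++ w))) η⟫_ℂ = rho E x * G w := by
    intro x w
    have t1 : (P ++ g :: x :: w).take (i + 2) = P ++ [g, x] := by
      simp [List.take_append, hP, List.take_of_length_le]
    have d1 : (P ++ g :: x :: w).drop (i + 2) = w := by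
      simp [List.drop_append, hP, List.drop_eq_nil_of_le]
    have d0 : (P ++ g :: x :: w).drop (i + 2 - 2) = g :: x :: w := by simp [← hP]
    have t2 : (P ++ g :: x :: w).take (i + (2 + d)) = P ++ g :: x :: w.take d := by
      rw [← hP, List.take_length_add_append, Nat.add_comm 2 d]; simp
    have d2 : (P ++ g :: x :: w).drop (i + (2 + d)) = w.drop d := by
      rw [← hP, List.drop_length_add_append, Nat.add_comm 2 d]; simp
    have d3 : (P ++ g :: x :: w).drop (i + (2 + d) - 2) = (g :: x :: w).drop d := by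
      rw [show i + (2 + d) - 2 = P.length + d by omega, List.drop_length_add_append]
    simp only [List.singleton_append, vecW, wt, t1, d1, d0, t2, d2, d3, inner_smul_left,
      inner_smul_right, G]
    rw [conj_wt4, wt4_eq_tailWt]
    by_cases hd : d = 1
    · subst hd
      simp only [if_true, mul_zero, List.drop_succ_cons, List.drop_zero]
      have hz := wt4_cons_mul_rho x w
      linear_combination (tailWt E g w * ⟪wA E (P ++ [g, x]) (wB E w η),
        wA E (P ++ g :: x :: w.take 1) (wB E (w.drop 1) η)⟫_ℂ) * hz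
    · rw [if_neg hd]
      obtain ⟨d', rfl⟩ : ∃ d', d = d' + 2 := ⟨d - 2, by omega⟩
      have hA : wA E (P ++ g :: x :: w.take (d' + 2)) =
          wA E (P ++ [g, x]) * wA E (w.take (d' + 2)) := by
        simp [wA, mul_assoc]
      rw [hA, show ((g :: x :: w).drop (d' + 2)) = w.drop d' by simp, Nat.add_sub_cancel]
      show _ * (_ * ⟪_, wA E (P ++ [g, x]) (wA E (w.take (d' + 2)) _)⟫_ℂ) = _
      rw [inner_apply_apply (wA_spec E _).2.1]
      ring
  rw [avgW_rho E _ (fun _ => avgW k G) ?_]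
  · simp only [avgT_const, sub_self, smul_zero]
  · intro x
    rw [← avgW_smul]
    exact avgW_congr fun w _ => by rw [hshape, smul_eq_mul]

lemma conj_avgW : ∀ (n : ℕ) (f : List (Alph E) → ℂ),
    conj (avgW n f) = avgW n fun s => conj (f s)
  | 0, f => rfl
  | n + 1, f => by
    simp only [avgW, smul_eq_mul, map_mul, map_sum, map_inv₀, Complex.conj_natCast, conj_avgW n]

/-- Two test vectors at different slots of one level are orthogonal. -/
theorem avg_inner_ne {n r r' : ℕ} (hr : r ∈ slots n) (hr' : r' ∈ slots n) (h : r ≠ r') (η : K) :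
    avgW n (fun s : List (Alph E) => ⟪vecW E r s η, vecW E r' s η⟫_ℂ) = 0 := by
  simp only [slots, Finset.mem_Icc] at hr hr'
  rcases Nat.lt_or_gt_of_ne h with h | h
  · exact avg_inner_vecW (by omega) h (by omega) η
  · have h0 := congrArg conj (avg_inner_vecW (E := E) (n := n) (r := r') (r' := r) (by omega) h
      (by omega) η)
    simp only [conj_avgW, inner_conj_symm, map_zero] at h0
    exact h0

/-- The coefficient of a slot in the test vector. -/
noncomputable def coef (φ : ℝ) (n r : ℕ) : ℝ :=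
  (n : ℝ)⁻¹ * (Real.cos (((n : ℝ) - 2 * r) * φ) * wgt φ)

/-- One level of the test vector. -/
noncomputable def level (φ : ℝ) (n : ℕ) (η : K) (s : List (Alph E)) : K :=
  ∑ r ∈ slots n, ((coef φ n r : ℝ) : ℂ) • vecW E r s η

/-- The test vector. -/
noncomputable def testVec (E : Letters K) (N T : ℕ) (φ : ℝ) (η : K) : Fock K (Alph E) T :=
  WithLp.toLp 2 fun s =>
    if s.1.val ∈ lens N then
      ((((Real.sqrt (Fintype.card (Alph E)))⁻¹ ^ s.1.val : ℝ) : ℂ)) •
        level φ s.1.val η (List.ofFn s.2)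
    else 0

lemma coef_sq_le (φ : ℝ) (n r : ℕ) : coef φ n r ^ 2 ≤ 81 * ((n : ℝ) ^ 2)⁻¹ := by
  have h1 : |Real.cos (((n : ℝ) - 2 * r) * φ) * wgt φ| ≤ 9 := by
    rw [abs_mul]
    have hw : |wgt φ| ≤ 9 := by
      rw [wgt, abs_of_nonneg (sq_nonneg _)]
      have h0 := sq_nonneg (Real.sin φ)
      have h1 : Real.sin φ ^ 2 ≤ 1 := Real.sin_sq_le_one φ
      nlinarith
    calc _ ≤ 1 * (9 : ℝ) := mul_le_mul (Real.abs_cos_le_one _) hw (abs_nonneg _) zero_le_one
      _ = 9 := one_mul _
  rw [coef, mul_pow, inv_pow, mul_comm]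
  refine mul_le_mul_of_nonneg_right ?_ (by positivity)
  nlinarith [sq_abs (Real.cos (((n : ℝ) - 2 * r) * φ) * wgt φ),
    abs_nonneg (Real.cos (((n : ℝ) - 2 * r) * φ) * wgt φ)]

/-- The squared norm of one level. -/
theorem level_sq_le (φ : ℝ) (n : ℕ) (η : K) :
    ‖avgW n (fun s : List (Alph E) => ⟪level φ n η s, level φ n η s⟫_ℂ)‖ ≤
      81 * ‖η‖ ^ 2 * ∑ _r ∈ slots n, ((n : ℝ) ^ 2)⁻¹ := by
  have e : ∀ s : List (Alph E), ⟪level φ n η s, level φ n η s⟫_ℂ =
      ∑ r ∈ slots n, ∑ r' ∈ slots n,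
        ((coef φ n r * coef φ n r' : ℝ) : ℂ) • ⟪vecW E r s η, vecW E r' s η⟫_ℂ := fun s => by
    simp only [level, sum_inner, inner_sum, inner_smul_left, inner_smul_right, Complex.conj_ofReal,
      Finset.mul_sum, Complex.ofReal_mul, smul_eq_mul, mul_assoc]
    rw [Finset.sum_comm]
    refine Finset.sum_congr rfl fun a _ => Finset.sum_congr rfl fun b _ => ?_
    ring
  simp only [e, avgW_sum, avgW_smul]
  rw [Finset.mul_sum]
  refine norm_sum_le_of_le _ fun r hr => ?_
  rw [Finset.sum_eq_single r (fun r' hr' hne => by rw [avg_inner_ne hr hr' hne.symm, smul_zero])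
    (fun h => absurd hr h), norm_smul, Complex.norm_real, Real.norm_eq_abs, abs_mul_self, ← sq]
  refine (mul_le_mul (coef_sq_le φ n r) (norm_avgW_le (c := ‖η‖ ^ 2) fun s _ => ?_)
    (norm_nonneg _) (by positivity)).trans_eq (by ring)
  refine (norm_inner_le_norm _ _).trans ?_
  rw [sq]
  exact mul_le_mul (norm_vecW_le r s η) (norm_vecW_le r s η) (norm_nonneg _) (norm_nonneg _)

lemma sqrt_card_pow (n : ℕ) :
    (((Real.sqrt (Fintype.card (Alph E)))⁻¹ ^ n : ℝ) : ℂ) *
        (((Real.sqrt (Fintype.card (Alph E)))⁻¹ ^ n : ℝ) : ℂ) *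
      (Fintype.card (Alph E) : ℂ) ^ n = 1 := by
  have h : (0 : ℝ) < (Fintype.card (Alph E) : ℝ) := by exact_mod_cast Fintype.card_pos
  rw [show (Fintype.card (Alph E) : ℂ) = ((Fintype.card (Alph E) : ℝ) : ℂ) by simp,
    ← Complex.ofReal_pow, ← Complex.ofReal_mul, ← Complex.ofReal_mul, ← mul_pow, ← mul_pow,
    ← mul_inv, Real.mul_self_sqrt h.le, inv_mul_cancel₀ h.ne', one_pow, Complex.ofReal_one]

/-- Inner products with the test vector, level by level. -/
theorem inner_testVec (N T : ℕ) (hT : N ≤ T + 1) (φ : ℝ) (η : K) (F : Fock K (Alph E) T)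
    (f : ℕ → List (Alph E) → K)
    (hF : ∀ (n : ℕ) (hn : n < T + 1) (s : Fin n → Alph E), n ∈ lens N →
      F ⟨⟨n, hn⟩, s⟩ =
        ((((Real.sqrt (Fintype.card (Alph E)))⁻¹ ^ n : ℝ) : ℂ)) • f n (List.ofFn s)) :
    ⟪testVec E N T φ η, F⟫_ℂ =
      ∑ n ∈ lens N, avgW n fun s : List (Alph E) => ⟪level φ n η s, f n s⟫_ℂ := by
  rw [PiLp.inner_apply, Fintype.sum_sigma]
  let g : ℕ → ℂ := fun n => ∑ s : Fin n → Alph E,
    if n ∈ lens N then ((Fintype.card (Alph E) : ℂ) ^ n)⁻¹ *
      ⟪level φ n η (List.ofFn s), f n (List.ofFn s)⟫_ℂ else 0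
  calc _ = ∑ n : Fin (T + 1), g n := ?_
    _ = ∑ n ∈ Finset.range (T + 1), g n := Fin.sum_univ_eq_sum_range g _
    _ = ∑ n ∈ lens N, g n := ?_
    _ = _ := ?_
  · refine Finset.sum_congr rfl fun n _ => Finset.sum_congr rfl fun s _ => ?_
    simp only [testVec]
    by_cases hn : n.val ∈ lens N
    · rw [if_pos hn, if_pos hn, hF n.val n.2 s hn, inner_smul_left, inner_smul_right,
        Complex.conj_ofReal, ← mul_assoc]
      congr 1
      exact eq_inv_of_mul_eq_one_left (sqrt_card_pow n.val)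
    · rw [if_neg hn, if_neg hn, inner_zero_left]
  · refine (Finset.sum_subset ?_ ?_).symm
    · intro n hn
      simp only [lens, Finset.mem_Ico, Finset.mem_range] at hn ⊢; omega
    · intro n _ hn
      exact Finset.sum_eq_zero fun s _ => if_neg hn
  · refine Finset.sum_congr rfl fun n hn => ?_
    simp only [g, if_pos hn]
    rw [sum_ofFn n (fun s => ((Fintype.card (Alph E) : ℂ) ^ n)⁻¹ *
      ⟪level φ n η s, f n s⟫_ℂ)]
    simp only [← smul_eq_mul, avgW_smul]
    rw [smul_smul, mul_inv_cancel₀ (pow_ne_zero _ (Nat.cast_ne_zero.2 Fintype.card_ne_zero)),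
      one_smul]

/-- The squared norm of the test vector. -/
theorem testVec_sq_le (N T : ℕ) (hT : N ≤ T + 1) (φ : ℝ) (η : K) :
    ‖testVec E N T φ η‖ ^ 2 ≤
      81 * ‖η‖ ^ 2 * ∑ n ∈ lens N, ∑ _r ∈ slots n, ((n : ℝ) ^ 2)⁻¹ := by
  have h := inner_testVec (E := E) N T hT φ η (testVec E N T φ η) (fun n s => level φ n η s)
    (fun n hn s hmem => by simp [testVec, hmem])
  rw [inner_self_eq_norm_sq_to_K] at h
  have h2 := congrArg norm h
  simp only [norm_pow, RCLike.norm_ofReal, abs_norm] at h2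
  rw [h2, Finset.mul_sum]
  exact norm_sum_le_of_le _ fun n _ => level_sq_le φ n η

end Vale.Agent.P096.Full.Key
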