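import Vale.Agent.P096.Full.Key.Words

/-!
P096, KEY: operator estimates for one test, in particular the expansion at the slot itself.
-/

open scoped InnerProductSpace

namespace Vale.Agent.P096.Full.Key

universe u

variable {K : Type u} [NormedAddCommGroup K] [InnerProductSpace ℂ K] [CompleteSpace K]

/-- The commutator. -/
def com {R : Type*} [Ring R] (x y : R) : R := x * y - y * x

lemma norm_le_one {x : K →L[ℂ] K} (h : star x * x = 1) : ‖x‖ ≤ 1 := by
  have h1 : ‖x‖ * ‖x‖ = ‖(1 : K →L[ℂ] K)‖ := by rw [← CStarRing.norm_star_mul_self, h]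
  have h2 : ‖(1 : K →L[ℂ] K)‖ ≤ 1 := ContinuousLinearMap.norm_id_le
  nlinarith [norm_nonneg x]

lemma norm_star_le_one {x : K →L[ℂ] K} (h : star x * x = 1) : ‖star x‖ ≤ 1 := by
  rw [norm_star]; exact norm_le_one h

lemma norm_apply_le_self {x : K →L[ℂ] K} (h : ‖x‖ ≤ 1) (z : K) : ‖x z‖ ≤ ‖z‖ :=
  (x.le_of_opNorm_le h z).trans_eq (one_mul _)

lemma apply_star_apply {x : K →L[ℂ] K} (h : star x * x = 1) (z : K) : star x (x z) = z :=
  DFunLike.congr_fun h z

lemma inner_star_apply (x : K →L[ℂ] K) (z w : K) : ⟪z, star x w⟫_ℂ = ⟪x z, w⟫_ℂ := by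
  rw [ContinuousLinearMap.star_eq_adjoint, ContinuousLinearMap.adjoint_inner_right]

lemma inner_apply_apply {x : K →L[ℂ] K} (h : star x * x = 1) (z w : K) :
    ⟪x z, x w⟫_ℂ = ⟪z, w⟫_ℂ := by
  rw [← inner_star_apply, apply_star_apply h]

/-- The two defects of a test. -/
structure Defects (E : Letters K) (γ ν : ℝ) : Prop where
  γ_nonneg : 0 ≤ γ
  ν_nonneg : 0 ≤ ν
  op : ∀ x ∈ E.A, ∀ y ∈ E.B, ‖x * y - y * x‖ ≤ γ * (‖x‖ * ‖y‖)
  vec : ∀ x ∈ E.A, ∀ y ∈ E.B, ‖(x * y - y * x) E.v‖ ≤ ν * (‖x‖ * ‖y‖)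
  X : ‖E.X E.v - E.X' E.v‖ ≤ ν
  Y : ‖E.Y E.v - E.Y' E.v‖ ≤ ν

variable {E : Letters K} {γ ν : ℝ}

namespace Defects

variable (D : Defects E γ ν)
include D

lemma op_le {x y : K →L[ℂ] K} (hx : x ∈ E.A) (hy : y ∈ E.B) (hx1 : ‖x‖ ≤ 1) (hy1 : ‖y‖ ≤ 1)
    (z : K) : ‖com x y z‖ ≤ γ * ‖z‖ := by
  refine (ContinuousLinearMap.le_of_opNorm_le _ ((D.op x hx y hy).trans ?_) z)
  have := mul_le_mul hx1 hy1 (norm_nonneg y) zero_le_one
  nlinarith [D.γ_nonneg]

lemma op_le' {x y : K →L[ℂ] K} (hx : x ∈ E.A) (hy : y ∈ E.B) (hx1 : ‖x‖ ≤ 1) (hy1 : ‖y‖ ≤ 1)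
    (z : K) : ‖x (y z) - y (x z)‖ ≤ γ * ‖z‖ := D.op_le hx hy hx1 hy1 z

lemma vec_le {x y : K →L[ℂ] K} (hx : x ∈ E.A) (hy : y ∈ E.B) {c : ℝ} (hc : ‖x‖ * ‖y‖ ≤ c) :
    ‖com x y E.v‖ ≤ ν * c :=
  (D.vec x hx y hy).trans (mul_le_mul_of_nonneg_left hc D.ν_nonneg)

lemma vec_le_one {x y : K →L[ℂ] K} (hx : x ∈ E.A) (hy : y ∈ E.B) (hx1 : ‖x‖ ≤ 1)
    (hy1 : ‖y‖ ≤ 1) : ‖com x y E.v‖ ≤ ν := by
  simpa using D.vec_le hx hy (c := 1) (by simpa using mul_le_mul hx1 hy1 (norm_nonneg y) zero_le_one)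

lemma val_le (x : Alph E) : ‖valA E x E.v - valB E x E.v‖ ≤ ν := by
  obtain ⟨⟨t, g⟩, o⟩ := x
  fin_cases t
  · simpa [valA, valB] using D.X
  · simpa [valA, valB] using D.Y
  · simpa [valA, valB] using D.ν_nonneg
  · simpa [valA, valB, E.a_v g] using D.ν_nonneg

lemma word_le : ∀ s : List (Alph E), ‖(wA E s - wB E s) E.v‖ ≤ 2 * ν * s.length
  | [] => by simp [wA, wB]
  | x :: s => by
    obtain ⟨ha, ha1, -, -⟩ := valA_spec E x
    have hB := wB_spec E s
    have e : (wA E (x :: s) - wB E (x :: s)) E.v =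
        valA E x ((wA E s - wB E s) E.v) +
          (com (valA E x) (wB E s) E.v + wB E s (valA E x E.v - valB E x E.v)) := by
      simp [wA, wB, com, map_sub]
    rw [e]
    refine (norm_add_le _ _).trans ((add_le_add ((norm_apply_le_self (norm_le_one ha1) _).trans
      (word_le s)) ((norm_add_le _ _).trans (add_le_add
      (D.vec_le_one ha hB.1 (norm_le_one ha1) (norm_le_one hB.2.1))
      ((norm_apply_le_self (norm_le_one hB.2.1) _).trans (D.val_le x))))).trans ?_)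
    simp only [List.length_cons, Nat.cast_add, Nat.cast_one]
    linarith

end Defects

/-- The part of the expansion at the slot that does not see the left slot letter. -/
noncomputable def freeA (E : Letters K) (q Q R b a' : K →L[ℂ] K) (η : K) : ℂ :=
  ⟪b η, star q (com Q (q * b * star R) E.v)⟫_ℂ - ⟪b η, star q (com a' q E.v)⟫_ℂ

/-- The part of the expansion at the slot that does not see the right slot letter. -/
noncomputable def freeB (E : Letters K) (p R a b' : K →L[ℂ] K) (η : K) : ℂ :=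
  -⟪a η, star p (star R (com (p * a) R E.v))⟫_ℂ - ⟪a η, star p (com p b' E.v)⟫_ℂ

/-- The expansion at the slot itself. -/
theorem center_est (D : Defects E γ ν) {p q a a' b b' Q R : K →L[ℂ] K} {ε : ℝ}
    (hp : p ∈ E.A ∧ star p * p = 1) (ha : a ∈ E.A ∧ star a * a = 1)
    (ha' : a' ∈ E.A ∧ star a' * a' = 1) (hQ : Q ∈ E.A ∧ star Q * Q = 1)
    (hq : q ∈ E.B ∧ star q * q = 1) (hb : b ∈ E.B ∧ star b * b = 1)
    (hb' : b' ∈ E.B ∧ star b' * b' = 1) (hR : R ∈ E.B ∧ star R * R = 1)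
    (hQR : ‖(Q - R) E.v‖ ≤ ε) (hab : ‖(b - a') E.v‖ ≤ ν) (hba : ‖(a - b') E.v‖ ≤ ν) (η : K) :
    ‖⟪a (b η), star q (star p (com (p * a * Q) (q * b * star R) E.v))⟫_ℂ -
      (⟪a (b η), com a b E.v + star q (star p (com (p * (a * a')) q E.v)) +
          star q (star p (q (com p (b * b') E.v)))⟫_ℂ +
        freeA E q Q R b a' η + freeB E p R a b' η)‖ ≤ γ * ‖η‖ * (ε + 11 * ν) := by
  obtain ⟨hpA, hp1⟩ := hp
  obtain ⟨haA, ha1⟩ := ha
  obtain ⟨ha'A, ha'1⟩ := ha'
  obtain ⟨hQA, hQ1⟩ := hQ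
  obtain ⟨hqB, hq1⟩ := hq
  obtain ⟨hbB, hb1⟩ := hb
  obtain ⟨hb'B, hb'1⟩ := hb'
  obtain ⟨hRB, hR1⟩ := hR
  have hγ := D.γ_nonneg
  have hν := D.ν_nonneg
  have np : ‖p‖ ≤ 1 := norm_le_one hp1
  have nps : ‖star p‖ ≤ 1 := norm_star_le_one hp1
  have na : ‖a‖ ≤ 1 := norm_le_one ha1
  have na' : ‖a'‖ ≤ 1 := norm_le_one ha'1
  have nQ : ‖Q‖ ≤ 1 := norm_le_one hQ1
  have nq : ‖q‖ ≤ 1 := norm_le_one hq1
  have nqs : ‖star q‖ ≤ 1 := norm_star_le_one hq1
  have nb : ‖b‖ ≤ 1 := norm_le_one hb1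
  have nb' : ‖b'‖ ≤ 1 := norm_le_one hb'1
  have nR : ‖R‖ ≤ 1 := norm_le_one hR1
  have nRs : ‖star R‖ ≤ 1 := norm_star_le_one hR1
  have npa : ‖p * a‖ ≤ 1 :=
    (norm_mul_le _ _).trans (by simpa using mul_le_mul np na (norm_nonneg a) zero_le_one)
  have hpaA : p * a ∈ E.A := mul_mem hpA haA
  set m := q * b * star R with hm
  have hmB : m ∈ E.B := mul_mem (mul_mem hqB hbB) (star_mem hRB)
  have nm : ‖m‖ ≤ 1 := (norm_mul_le _ _).trans (by
    simpa using mul_le_mul ((norm_mul_le q b).trans (by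
      simpa using mul_le_mul nq nb (norm_nonneg b) zero_le_one)) nRs (norm_nonneg _) zero_le_one)
  have hmR : m * R = q * b := by rw [hm, mul_assoc, hR1, mul_one]
  have id1 : com (p * a * Q) m = p * a * com Q m + com (p * a) (q * b) - m * com (p * a) R +
      com (p * a) m * (Q - R) := by
    simp only [com]; rw [← hmR]; noncomm_ring
  have id2 : com (p * a) (q * b) = com (p * (a * a')) q - p * a * com a' q +
      com (p * a) q * (b - a') + q * p * com a b + q * com p (b * b') - q * b * com p b' +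
      q * (com p b * (a - b')) := by
    simp only [com]; noncomm_ring
  set F : K → ℂ := fun Z => ⟪a (b η), star q (star p Z)⟫_ℂ with hF
  have Fadd : ∀ x y, F (x + y) = F x + F y := fun x y => by
    simp only [hF, map_add, inner_add_right]
  have Fsub : ∀ x y, F (x - y) = F x - F y := fun x y => by
    simp only [hF, map_sub, inner_sub_right]
  have nη : ‖a (b η)‖ ≤ ‖η‖ :=
    (norm_apply_le_self na _).trans (norm_apply_le_self nb _)
  have Fle : ∀ Z, ‖F Z‖ ≤ ‖η‖ * ‖Z‖ := fun Z => (norm_inner_le_norm _ _).trans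
    (mul_le_mul nη ((norm_apply_le_self nqs _).trans (norm_apply_le_self nps _)) (norm_nonneg _)
      (norm_nonneg _))
  -- a term killed by the left slot letter
  have killA : ∀ Z : K, ‖F (p (a Z)) - ⟪b η, star q Z⟫_ℂ‖ ≤ γ * ‖η‖ * ‖Z‖ := fun Z => by
    have e : F (p (a Z)) - ⟪b η, star q Z⟫_ℂ =
        ⟪a (b η), star q (a Z) - a (star q Z)⟫_ℂ := by
      simp only [hF, apply_star_apply hp1, inner_sub_right, inner_apply_apply ha1]
    rw [e]
    refine (norm_inner_le_norm _ _).trans ((mul_le_mul nη ?_ (norm_nonneg _) (norm_nonneg _)).trans_eq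
      (by ring : ‖η‖ * (γ * ‖Z‖) = γ * ‖η‖ * ‖Z‖))
    rw [norm_sub_rev]
    exact D.op_le' haA (star_mem hqB) na nqs Z
  -- moving `q` through
  have qmove : ∀ Z : K, ‖star q (star p (q Z)) - star p Z‖ ≤ γ * ‖Z‖ := fun Z => by
    have e : star q (star p (q Z)) - star p Z = star q (star p (q Z) - q (star p Z)) := by
      rw [map_sub, apply_star_apply hq1]
    rw [e]
    exact (norm_apply_le_self nqs _).trans (D.op_le' (star_mem hpA) hqB nps nq Z)
  -- a term killed by the right slot letter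
  have killB : ∀ Z : K, ‖F (q (b Z)) - ⟪a η, star p Z⟫_ℂ‖ ≤ 3 * (γ * ‖η‖ * ‖Z‖) := fun Z => by
    have e : F (q (b Z)) - ⟪a η, star p Z⟫_ℂ =
        ⟪a (b η), star q (star p (q (b Z))) - star p (b Z)⟫_ℂ +
        ⟪a (b η), star p (b Z) - b (star p Z)⟫_ℂ +
        ⟪a (b η) - b (a η), b (star p Z)⟫_ℂ := by
      simp only [hF, inner_sub_right, inner_sub_left, inner_apply_apply hb1]; ring
    rw [e]
    have h1 := (norm_inner_le_norm (𝕜 := ℂ) (a (b η)) _).trans (mul_le_mul nη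
      ((qmove (b Z)).trans (mul_le_mul_of_nonneg_left (norm_apply_le_self nb Z) hγ))
      (norm_nonneg _) (norm_nonneg _))
    have h2 := (norm_inner_le_norm (𝕜 := ℂ) (a (b η)) _).trans (mul_le_mul nη
      (D.op_le' (star_mem hpA) hbB nps nb Z) (norm_nonneg _) (norm_nonneg _))
    have h3 := (norm_inner_le_norm (𝕜 := ℂ) _ (b (star p Z))).trans (mul_le_mul
      (D.op_le' haA hbB na nb η) ((norm_apply_le_self nb _).trans (norm_apply_le_self nps Z))
      (norm_nonneg _) (by positivity))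
    refine (norm_add₃_le).trans ((add_le_add (add_le_add h1 h2) h3).trans (le_of_eq ?_))
    ring
  have hmv : ∀ Z : K, m Z = q (b (star R Z)) := fun Z => rfl
  have eX : com (p * a * Q) m E.v =
      p (a (com Q m E.v)) + (com (p * (a * a')) q E.v - p (a (com a' q E.v)) +
        com (p * a) q ((b - a') E.v) + q (p (com a b E.v)) + q (com p (b * b') E.v) -
        q (b (com p b' E.v)) + q (com p b ((a - b') E.v))) -
      q (b (star R (com (p * a) R E.v))) + com (p * a) m ((Q - R) E.v) := by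
    rw [id1, id2]; rfl
  have e4 : ‖F (q (p (com a b E.v))) - ⟪a (b η), com a b E.v⟫_ℂ‖ ≤ γ * ‖η‖ * ν := by
    have hq' := qmove (p (com a b E.v))
    rw [apply_star_apply hp1] at hq'
    rw [show F (q (p (com a b E.v))) - ⟪a (b η), com a b E.v⟫_ℂ =
        ⟪a (b η), star q (star p (q (p (com a b E.v)))) - com a b E.v⟫_ℂ by
      simp only [hF, inner_sub_right]]
    refine (norm_inner_le_norm _ _).trans ((mul_le_mul nη (hq'.trans (mul_le_mul_of_nonneg_left
      ((norm_apply_le_self np _).trans (D.vec_le_one haA hbB na nb)) hγ)) (norm_nonneg _)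
      (norm_nonneg _)).trans_eq (by ring))
  have small : ∀ {x y : K →L[ℂ] K} (z : K) {c : ℝ}, x ∈ E.A → y ∈ E.B → ‖x‖ ≤ 1 → ‖y‖ ≤ 1 →
      ‖z‖ ≤ c → ‖com x y z‖ ≤ γ * c := by
    intro x y z c hx hy hx1 hy1 hz
    exact (D.op_le hx hy hx1 hy1 z).trans (mul_le_mul_of_nonneg_left hz hγ)
  have t1 := (killA (com Q m E.v)).trans
    (mul_le_mul_of_nonneg_left (D.vec_le_one hQA hmB nQ nm) (by positivity))
  have t2 := (killA (com a' q E.v)).trans
    (mul_le_mul_of_nonneg_left (D.vec_le_one ha'A hqB na' nq) (by positivity))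
  have t3 := (killB (star R (com (p * a) R E.v))).trans (mul_le_mul_of_nonneg_left
    (mul_le_mul_of_nonneg_left ((norm_apply_le_self nRs _).trans
      (D.vec_le_one hpaA hRB npa nR)) (by positivity)) (by norm_num))
  have t4 := (killB (com p b' E.v)).trans (mul_le_mul_of_nonneg_left
    (mul_le_mul_of_nonneg_left (D.vec_le_one hpA hb'B np nb') (by positivity)) (by norm_num))
  have t5 := (Fle (com (p * a) q ((b - a') E.v))).trans
    (mul_le_mul_of_nonneg_left (small _ hpaA hqB npa nq hab) (norm_nonneg η))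
  have t6 := (Fle (q (com p b ((a - b') E.v)))).trans (mul_le_mul_of_nonneg_left
    ((norm_apply_le_self nq _).trans (small _ hpA hbB np nb hba)) (norm_nonneg η))
  have t7 := (Fle (com (p * a) m ((Q - R) E.v))).trans
    (mul_le_mul_of_nonneg_left (small _ hpaA hmB npa nm hQR) (norm_nonneg η))
  have etot : F (com (p * a * Q) m E.v) -
      (⟪a (b η), com a b E.v + star q (star p (com (p * (a * a')) q E.v)) +
          star q (star p (q (com p (b * b') E.v)))⟫_ℂ +
        freeA E q Q R b a' η + freeB E p R a b' η) =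
      (F (p (a (com Q m E.v))) - ⟪b η, star q (com Q m E.v)⟫_ℂ) -
      (F (p (a (com a' q E.v))) - ⟪b η, star q (com a' q E.v)⟫_ℂ) -
      (F (q (b (star R (com (p * a) R E.v)))) - ⟪a η, star p (star R (com (p * a) R E.v))⟫_ℂ) -
      (F (q (b (com p b' E.v))) - ⟪a η, star p (com p b' E.v)⟫_ℂ) +
      (F (q (p (com a b E.v))) - ⟪a (b η), com a b E.v⟫_ℂ) +
      F (com (p * a) q ((b - a') E.v)) + F (q (com p b ((a - b') E.v))) +
      F (com (p * a) m ((Q - R) E.v)) := by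
    rw [eX]
    simp only [Fadd, Fsub, freeA, freeB, hm]
    simp only [hF, inner_add_right]
    ring
  show ‖F (com (p * a * Q) m E.v) - _‖ ≤ _
  rw [etot]
  refine (norm_add_le _ _).trans ((add_le_add ((norm_add_le _ _).trans (add_le_add
    ((norm_add_le _ _).trans (add_le_add ((norm_add_le _ _).trans (add_le_add
      ((norm_sub_le _ _).trans (add_le_add ((norm_sub_le _ _).trans (add_le_add
        ((norm_sub_le _ _).trans (add_le_add t1 t2)) t3)) t4)) e4)) t5)) t6)) t7).trans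
    (le_of_eq ?_))
  ring

end Vale.Agent.P096.Full.Key
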