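import Vale.Agent.P096.Full.Key.Slot

/-!
P096, KEY: the pairing of a test vector with one coefficient of the commutator.
-/

open scoped InnerProductSpace ComplexConjugate

namespace Vale.Agent.P096.Full.Key

universe u

attribute [local instance] Letters.fin Letters.grp

variable {K : Type u} [NormedAddCommGroup K] [InnerProductSpace ℂ K] [CompleteSpace K]
  (E : Letters K)

/-- The weight of four letters. -/
def wt4 : List (Alph E) → ℂ
  | g :: x :: y :: h :: _ => chi E g * rho E x * sig E y * chi E h
  | _ => 0

/-- The weight of a word at the slot `r`. -/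
def wt (r : ℕ) (s : List (Alph E)) : ℂ := wt4 E (s.drop (r - 2))

/-- The test vector of the slot `r` at a word. -/
noncomputable def vecW (r : ℕ) (s : List (Alph E)) (η : K) : K :=
  wt E r s • wA E (s.take r) (wB E (s.drop r) η)

/-- One coefficient of the commutator at a word. -/
noncomputable def xv (r' : ℕ) (s c : List (Alph E)) : K :=
  com (wA E (s.take r' ++ c)) (wB E (inv (bar E) c ++ s.drop r')) E.v

/-- The pairing of the test vector at the slot `r` with the split `r'`. -/
noncomputable def pairing (n r r' l : ℕ) (η : K) : ℂ :=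
  avgW n fun s : List (Alph E) => avgW l fun c => ⟪vecW E r s η, xv E r' s c⟫_ℂ

/-- The integrand of the pairing after conditioning on the slot. -/
noncomputable def cond (r' : ℕ) (η : K) (x y : Alph E) (P : List (Alph E)) (g h : Alph E)
    (V c : List (Alph E)) : ℂ :=
  ⟪wA E (P ++ [g, x]) (wB E (y :: h :: V) η), xv E r' (P ++ g :: x :: y :: h :: V) c⟫_ℂ

variable {E}

lemma conj_chi (x : Alph E) : conj (chi E x) = chi E x := by
  simp only [chi]; split_ifs <;> simp

lemma conj_rho (x : Alph E) : conj (rho E x) = rho E x := by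
  simp only [rho]; split_ifs <;> simp

lemma conj_sig (x : Alph E) : conj (sig E x) = sig E x := by
  simp only [sig]; split_ifs <;> simp

theorem pairing_eq (i k l r' : ℕ) (η : K) :
    pairing E (i + (4 + k)) (i + 2) r' l η =
      (256 : ℂ)⁻¹ * four E fun x y => mid E i k l (cond E r' η x y) := by
  have e4 : 4 + k = 1 + (1 + (1 + (1 + k))) := by omega
  rw [pairing, avgW_split, e4]
  have hin : ∀ P : List (Alph E), P.length = i →
      avgW (1 + (1 + (1 + (1 + k)))) (fun w => avgW l fun c =>
        ⟪vecW E (i + 2) (P ++ w) η, xv E r' (P ++ w) c⟫_ℂ) =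
      (256 : ℂ)⁻¹ * four E fun x y => avgT E 3 fun g => avgT E 3 fun h =>
        avgW k fun V => avgW l fun c => cond E r' η x y P g h V c := by
    intro P hP
    have hpt : ∀ g x y h V c, ⟪vecW E (i + 2) (P ++ g :: x :: y :: h :: V) η,
        xv E r' (P ++ g :: x :: y :: h :: V) c⟫_ℂ =
        chi E g • rho E x • sig E y • chi E h • cond E r' η x y P g h V c := by
      intro g x y h V c
      have h1 : (P ++ g :: x :: y :: h :: V).take (i + 2) = P ++ [g, x] := by
        simp [List.take_append, hP, List.take_of_length_le]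
      have h2 : (P ++ g :: x :: y :: h :: V).drop (i + 2) = y :: h :: V := by
        simp [List.drop_append, hP, List.drop_eq_nil_of_le]
      have h3 : (P ++ g :: x :: y :: h :: V).drop (i + 2 - 2) = g :: x :: y :: h :: V := by
        simp [← hP]
      simp only [vecW, wt, h1, h2, h3, wt4, inner_smul_left, map_mul, conj_chi, conj_rho,
        conj_sig, smul_eq_mul, cond]
      ring
    rw [avgW_split, avgW_chi E _ (fun g => avgW (1 + (1 + (1 + k))) fun w => avgW l fun c =>
      (match w with
        | x :: y :: h :: V => rho E x • sig E y • chi E h • cond E r' η x y P g h V c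
        | _ => 0)) ?_]
    · have hx : ∀ g, avgW (1 + (1 + (1 + k))) (fun w => avgW l fun c =>
          (match w with
            | x :: y :: h :: V => rho E x • sig E y • chi E h • cond E r' η x y P g h V c
            | _ => 0)) =
          (4 : ℂ)⁻¹ • (4 : ℂ)⁻¹ • (4 : ℂ)⁻¹ • four E fun x y => avgT E 3 fun h =>
            avgW k fun V => avgW l fun c => cond E r' η x y P g h V c := by
        intro g
        rw [avgW_split, avgW_rho E _ (fun x => avgW 1 fun u => avgW (1 + k) fun w =>
          (match u ++ w with
            | y :: h :: V => sig E y • chi E h • avgW l fun c => cond E r' η x y P g h V c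
            | _ => 0)) ?_]
        · have hy : ∀ x, avgW 1 (fun u => avgW (1 + k) fun w =>
              (match u ++ w with
                | y :: h :: V => sig E y • chi E h • avgW l fun c => cond E r' η x y P g h V c
                | _ => 0)) = (4 : ℂ)⁻¹ • (avgT E 1 (fun y => (4 : ℂ)⁻¹ • avgT E 3 fun h =>
                  avgW k fun V => avgW l fun c => cond E r' η x y P g h V c) -
                avgT E 2 (fun y => (4 : ℂ)⁻¹ • avgT E 3 fun h =>
                  avgW k fun V => avgW l fun c => cond E r' η x y P g h V c)) := by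
            intro x
            refine avgW_sig E _ _ fun y => ?_
            rw [avgW_split, avgW_chi E _ (fun h => sig E y • avgW k fun V => avgW l fun c =>
              cond E r' η x y P g h V c) ?_, avgT_smul, smul_comm]
            intro h
            simp only [List.singleton_append, List.nil_append, avgW_smul, smul_comm (chi E h)]
          simp only [hy, four, avgT_smul, avgT_sub, ← smul_sub]
        · intro x
          rw [avgW_split, ← avgW_smul]
          refine avgW_congr fun u hu => ?_
          rw [← avgW_smul]
          refine avgW_congr fun w hw => ?_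
          obtain ⟨y, rfl⟩ := List.length_eq_one_iff.1 hu
          cases w with
          | nil => simp at hw; omega
          | cons h V => simp only [List.singleton_append, List.cons_append, List.nil_append,
              avgW_smul]
      rw [avgT_congr E (fun g _ => hx g)]
      simp only [avgT_smul, avgT_four]
      simp only [smul_eq_mul]
      ring
    · intro g
      rw [← avgW_smul]
      refine avgW_congr fun w hw => ?_
      rw [← avgW_smul]
      refine avgW_congr fun c _ => ?_
      match w, hw with
      | [], h => simp at h <;> omega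
      | [_], h => simp at h <;> omega
      | [_, _], h => simp at h <;> omega
      | x :: y :: h :: V, _ => simp only [List.singleton_append, hpt]
  rw [avgW_congr hin]
  simp only [← smul_eq_mul, avgW_smul, avgW_four]
  rfl

/-- What the pairing sees of a slot and a split: the centre and the two linear maps. -/
noncomputable def model (E : Letters K) (n r r' l : ℕ) (x y : Alph E) : K :=
  (if r' = r then com (valA E x) (valB E y) E.v else 0) +
    Lmap E n r r' l (valA E x * valA E y) + Lam E n r r' l (valB E y * valB E x)

variable {γ ν : ℝ}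

theorem pairing_est (D : Defects E γ ν) (i k l r' : ℕ) (hr' : r' ≤ i + (4 + k))
    (hres : r' = i + 2 ∨ i + 2 + 2 ≤ r' ∨ r' + 2 ≤ i + 2) (η : K) :
    ‖256 * pairing E (i + (4 + k)) (i + 2) r' l η - four E (fun x y =>
      ⟪valA E x (valB E y η), model E (i + (4 + k)) (i + 2) r' l x y⟫_ℂ)‖ ≤
      4 * (γ * ‖η‖ * (2 * ν * l + 12 * ν)) := by
  have hν := D.ν_nonneg
  have hγ := D.γ_nonneg
  have hi : i + 2 - 2 = i := by omega
  have hk : i + (4 + k) - (i + 2) - 2 = k := by omega
  rw [pairing_eq, ← mul_assoc, mul_inv_cancel₀ (by norm_num : (256 : ℂ) ≠ 0), one_mul]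
  -- the error of moving the products past the slot
  have move : ∀ x y P g h V (Z : K), ‖Z‖ ≤ ν →
      ‖⟪wA E (P ++ [g, x]) (wB E (y :: h :: V) η), Z⟫_ℂ -
        ⟪valA E x (valB E y η), pull E P g h V Z⟫_ℂ‖ ≤ γ * ‖η‖ * ν := by
    intro x y P g h V Z hZ
    have e1 : wA E (P ++ [g, x]) = wA E (P ++ [g]) * valA E x := by simp [wA, mul_assoc]
    have e2 : wB E (y :: h :: V) = wB E (h :: V) * valB E y := by simp [wB]
    have e3 : ⟪valA E x (valB E y η), pull E P g h V Z⟫_ℂ =
        ⟪wA E (P ++ [g]) (wB E (h :: V) (valA E x (valB E y η))), Z⟫_ℂ := by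
      show ⟪_, star (wB E (h :: V)) (star (wA E (P ++ [g])) Z)⟫_ℂ = _
      rw [inner_star_apply, inner_star_apply]
    rw [e3, ← inner_sub_left, e1, e2]
    show ‖⟪wA E (P ++ [g]) (valA E x (wB E (h :: V) (valB E y η))) -
      wA E (P ++ [g]) (wB E (h :: V) (valA E x (valB E y η))), Z⟫_ℂ‖ ≤ _
    rw [← map_sub]
    refine (norm_inner_le_norm _ _).trans (mul_le_mul ?_ hZ (norm_nonneg _) (by positivity))
    refine (norm_apply_le_self (norm_le_one (wA_spec E _).2.1) _).trans
      ((D.op_le' (valA_spec E x).1 (wB_spec E _).1 (norm_le_one (valA_spec E x).2.1)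
        (norm_le_one (wB_spec E _).2.1) _).trans ?_)
    exact mul_le_mul_of_nonneg_left
      (norm_apply_le_self (norm_le_one (valB_spec E y).2.1) η) hγ
  have hxv : ∀ (s c : List (Alph E)), ‖xv E r' s c‖ ≤ ν := fun s c =>
    D.vec_le_one (wA_spec E _).1 (wB_spec E _).1 (norm_le_one (wA_spec E _).2.1)
      (norm_le_one (wB_spec E _).2.1)
  rcases hres with hres | hres | hres
  · subst hres
    let FA : Alph E → ℂ := fun y => mid E i k l fun P g h V c =>
      freeA E (wB E (h :: V)) (wA E c) (wB E c) (valB E y) (valA E y) η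
    let FB : Alph E → ℂ := fun x => mid E i k l fun P g h V c =>
      freeB E (wA E (P ++ [g])) (wB E c) (valA E x) (valB E x) η
    have hfree : four E (fun x y => FA y + FB x) = 0 := by
      rw [four_add, four_right, four_left, add_zero]
    rw [← add_zero (four E fun x y =>
      ⟪valA E x (valB E y η), model E (i + (4 + k)) (i + 2) (i + 2) l x y⟫_ℂ), ← hfree,
      ← four_add, ← four_sub]
    refine norm_four_le E fun x y => ?_
    simp only [model, Lmap, Lam, if_true, hi, hk]
    have em : ⟪valA E x (valB E y η), com (valA E x) (valB E y) E.v +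
          mid E i k l (f0 E (valA E x * valA E y)) +
          mid E i k l (g0 E (valB E y * valB E x))⟫_ℂ =
        mid E i k l fun P g h V c => ⟪valA E x (valB E y η), com (valA E x) (valB E y) E.v +
          f0 E (valA E x * valA E y) P g h V c + g0 E (valB E y * valB E x) P g h V c⟫_ℂ := by
      refine Eq.trans ?_ (mid_map E ((innerSL ℂ (valA E x (valB E y η))).toLinearMap) i k l _)
      simp only [ContinuousLinearMap.coe_coe, innerSL_apply_apply, mid_add, mid_const]
    rw [em, ← mid_add, ← mid_add, ← mid_sub]
    refine norm_mid_le E fun P g h V c hP hc => ?_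
    have hX : xv E (i + 2) (P ++ g :: x :: y :: h :: V) c =
        com (wA E (P ++ [g]) * valA E x * wA E c)
          (wB E (h :: V) * valB E y * star (wB E c)) E.v := by
      have h1 : (P ++ g :: x :: y :: h :: V).take (i + 2) = P ++ [g, x] := by
        simp [List.take_append, hP, List.take_of_length_le]
      have h2 : (P ++ g :: x :: y :: h :: V).drop (i + 2) = y :: h :: V := by
        simp [List.drop_append, hP, List.drop_eq_nil_of_le]
      simp only [xv, h1, h2, wA, wB, wordA_append, wordB_append, wordA_cons, wordB_cons,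
        wordA_nil, mul_one, mul_assoc]
      rw [wordB_inv (valB E) (bar E) (fun z => (valB_spec E z).2.2.2)]
    have hx := valA_spec E x
    have hy := valA_spec E y
    have hx' := valB_spec E x
    have hy' := valB_spec E y
    have hce := center_est D (ε := 2 * ν * l) (η := η)
      ⟨(wA_spec E (P ++ [g])).1, (wA_spec E (P ++ [g])).2.1⟩
      ⟨hx.1, hx.2.1⟩ ⟨hy.1, hy.2.1⟩ ⟨(wA_spec E c).1, (wA_spec E c).2.1⟩
      ⟨(wB_spec E (h :: V)).1, (wB_spec E (h :: V)).2.1⟩ ⟨hy'.1, hy'.2.1⟩ ⟨hx'.1, hx'.2.1⟩
      ⟨(wB_spec E c).1, (wB_spec E c).2.1⟩ (by simpa [hc] using D.word_le c)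
      (by rw [sub_apply_eq, norm_sub_rev]; exact D.val_le y)
      (by rw [sub_apply_eq]; exact D.val_le x)
    have hmv := move x y P g h V _ (hxv (P ++ g :: x :: y :: h :: V) c)
    simp only [cond]
    rw [hX] at hmv ⊢
    refine (norm_sub_le_norm_sub_add_norm_sub _ _ _).trans ((add_le_add hmv
      (le_trans (le_of_eq ?_) hce)).trans (le_of_eq (by ring)))
    congr 1
    simp only [f0, g0, pull]
    rw [← add_assoc]
    rfl
  · obtain ⟨j, rfl⟩ : ∃ j, r' = i + 4 + j := ⟨r' - (i + 4), by omega⟩
    rw [← four_sub]
    refine (norm_four_le E (C := γ * ‖η‖ * ν) fun x y => ?_).trans (by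
      have : 0 ≤ γ * ‖η‖ * (2 * ν * l + 11 * ν) := by positivity
      nlinarith)
    have h1 : ¬ i + 4 + j = i + 2 := by omega
    have h2 : i + 2 + 2 ≤ i + 4 + j := by omega
    have h3 : ¬ i + 4 + j + 2 ≤ i + 2 := by omega
    have h4 : i + 4 + j - (i + 2) - 2 = j := by omega
    simp only [model, Lmap, Lam, h1, h2, h3, h4, hi, hk, if_true, if_false, zero_add, add_zero]
    rw [show ⟪valA E x (valB E y η), mid E i k l (fR E j (valA E x * valA E y))⟫_ℂ =
      mid E i k l (fun P g h V c =>
        ⟪valA E x (valB E y η), fR E j (valA E x * valA E y) P g h V c⟫_ℂ) from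
      mid_map E ((innerSL ℂ (valA E x (valB E y η))).toLinearMap) i k l _, ← mid_sub]
    refine le_trans (le_of_eq (congrArg norm (mid_congr E (f' := fun P g h V c =>
      ⟪wA E (P ++ [g, x]) (wB E (y :: h :: V) η),
        com (wA E (P ++ [g]) * (valA E x * valA E y) * (valA E h * wA E (V.take j ++ c)))
          (wB E (inv (bar E) c ++ V.drop j)) E.v⟫_ℂ -
        ⟪valA E x (valB E y η), fR E j (valA E x * valA E y) P g h V c⟫_ℂ) ?_)))
      (norm_mid_le E fun P g h V c _ _ => move x y P g h V _ (D.vec_le_one
        (mul_mem (mul_mem (wA_spec E _).1 (mul_mem (valA_spec E x).1 (valA_spec E y).1))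
          (mul_mem (valA_spec E h).1 (wA_spec E _).1)) (wB_spec E _).1
        (norm_mul_le_one (norm_mul_le_one (norm_le_one (wA_spec E _).2.1)
          (norm_mul_le_one (norm_le_one (valA_spec E x).2.1) (norm_le_one (valA_spec E y).2.1)))
          (norm_mul_le_one (norm_le_one (valA_spec E h).2.1) (norm_le_one (wA_spec E _).2.1)))
        (norm_le_one (wB_spec E _).2.1)))
    intro P g g' V c hP _ _ _ _
    have t1 : (P ++ g :: x :: y :: g' :: V).take (i + 4 + j) =
        P ++ g :: x :: y :: g' :: V.take j := by
      rw [add_assoc, ← hP, List.take_length_add_append, Nat.add_comm 4 j]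
      simp
    have t2 : (P ++ g :: x :: y :: g' :: V).drop (i + 4 + j) = V.drop j := by
      rw [add_assoc, ← hP, List.drop_length_add_append, Nat.add_comm 4 j]
      simp
    simp only [cond, xv, t1, t2, wA, wordA_append, wordA_cons, wordA_nil, mul_one, mul_assoc]
  · rw [← four_sub]
    refine (norm_four_le E (C := γ * ‖η‖ * ν) fun x y => ?_).trans (by
      have : 0 ≤ γ * ‖η‖ * (2 * ν * l + 11 * ν) := by positivity
      nlinarith)
    have h1 : ¬ r' = i + 2 := by omega
    have h2 : ¬ i + 2 + 2 ≤ r' := by omega
    simp only [model, Lmap, Lam, h1, h2, hres, hi, hk, if_true, if_false, zero_add, add_zero]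
    rw [show ⟪valA E x (valB E y η), mid E i k l (gL E r' (valB E y * valB E x))⟫_ℂ =
      mid E i k l (fun P g h V c =>
        ⟪valA E x (valB E y η), gL E r' (valB E y * valB E x) P g h V c⟫_ℂ) from
      mid_map E ((innerSL ℂ (valA E x (valB E y η))).toLinearMap) i k l _, ← mid_sub]
    refine le_trans (le_of_eq (congrArg norm (mid_congr E (f' := fun P g h V c =>
      ⟪wA E (P ++ [g, x]) (wB E (y :: h :: V) η),
        com (wA E (P.take r' ++ c)) (wB E (h :: V) * (valB E y * valB E x) *
          (valB E g * wB E (inv (bar E) c ++ P.drop r'))) E.v⟫_ℂ -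
        ⟪valA E x (valB E y η), gL E r' (valB E y * valB E x) P g h V c⟫_ℂ) ?_)))
      (norm_mid_le E fun P g h V c _ _ => move x y P g h V _ (D.vec_le_one
        (wA_spec E _).1
        (mul_mem (mul_mem (wB_spec E _).1 (mul_mem (valB_spec E y).1 (valB_spec E x).1))
          (mul_mem (valB_spec E g).1 (wB_spec E _).1))
        (norm_le_one (wA_spec E _).2.1)
        (norm_mul_le_one (norm_mul_le_one (norm_le_one (wB_spec E _).2.1)
          (norm_mul_le_one (norm_le_one (valB_spec E y).2.1) (norm_le_one (valB_spec E x).2.1)))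
          (norm_mul_le_one (norm_le_one (valB_spec E g).2.1) (norm_le_one (wB_spec E _).2.1)))))
    intro P g g' V c hP _ _ _ _
    have hle : r' ≤ P.length := by omega
    simp only [cond, xv, List.take_append_of_le_length hle, List.drop_append_of_le_length hle,
      wB, wordB_append, wordB_cons, mul_assoc]
where
  sub_apply_eq {a b : K →L[ℂ] K} {z : K} : (a - b) z = a z - b z := rfl

end Vale.Agent.P096.Full.Key
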