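import Vale.Agent.P096.Full.Key.Defs

/-!
P096, KEY/Scalar: the test polynomials are bounded on `[-2, 2]` uniformly in degree and angle.
-/

namespace Vale.Agent.P096.Full.Key.ScalarPoly

open Finset Polynomial

theorem abs_sin_nat_mul (j : ℕ) (x : ℝ) : |Real.sin (j * x)| ≤ j * |Real.sin x| := by
  induction j with
  | zero => simp
  | succ j ih =>
    push_cast
    rw [add_mul, one_mul, Real.sin_add]
    refine (abs_add_le _ _).trans ?_
    rw [abs_mul, abs_mul, add_mul, one_mul]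
    exact add_le_add ((mul_le_of_le_one_right (abs_nonneg _) (Real.abs_cos_le_one _)).trans ih)
      (mul_le_of_le_one_left (abs_nonneg _) (Real.abs_cos_le_one _))

theorem two_sin_mul_sum_sin (x : ℝ) (N : ℕ) :
    2 * Real.sin (x / 2) * ∑ i ∈ range N, Real.sin ((i + 1 : ℕ) * x) =
      Real.cos (x / 2) - Real.cos (N * x + x / 2) := by
  induction N with
  | zero => simp
  | succ N ih =>
    rw [sum_range_succ, mul_add, ih]
    push_cast
    rw [show ((N : ℝ) + 1) * x + x / 2 = ((N + 1) * x) + x / 2 by ring,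
      show (N : ℝ) * x + x / 2 = ((N + 1) * x) - x / 2 by ring, Real.cos_sub, Real.cos_add]
    ring

theorem two_sin_mul_sum_cos (x : ℝ) (N : ℕ) :
    2 * Real.sin (x / 2) * ∑ i ∈ range N, Real.cos ((i + 1 : ℕ) * x) =
      Real.sin (N * x + x / 2) - Real.sin (x / 2) := by
  induction N with
  | zero => simp
  | succ N ih =>
    rw [sum_range_succ, mul_add, ih]
    push_cast
    rw [show ((N : ℝ) + 1) * x + x / 2 = ((N + 1) * x) + x / 2 by ring,
      show (N : ℝ) * x + x / 2 = ((N + 1) * x) - x / 2 by ring, Real.sin_sub, Real.sin_add]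
    ring

theorem sin_mul_abs_sum_sin (x : ℝ) (N : ℕ) :
    |Real.sin (x / 2)| * |∑ i ∈ range N, Real.sin ((i + 1 : ℕ) * x)| ≤ 1 := by
  have h := congrArg abs (two_sin_mul_sum_sin x N)
  rw [abs_mul, abs_mul, abs_two] at h
  have := (abs_sub (Real.cos (x / 2)) (Real.cos (N * x + x / 2))).trans
    (add_le_add (Real.abs_cos_le_one _) (Real.abs_cos_le_one _))
  linarith

theorem sin_mul_abs_sum_cos (x : ℝ) (N : ℕ) :
    |Real.sin (x / 2)| * |∑ i ∈ range N, Real.cos ((i + 1 : ℕ) * x)| ≤ 1 := by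
  have h := congrArg abs (two_sin_mul_sum_cos x N)
  rw [abs_mul, abs_mul, abs_two] at h
  have := (abs_sub (Real.sin (N * x + x / 2)) (Real.sin (x / 2))).trans
    (add_le_add (Real.abs_sin_le_one _) (Real.abs_sin_le_one _))
  linarith

/-- Partial sums of the series `sin (j x) / j` are bounded. -/
theorem abs_sine_series (x : ℝ) (N : ℕ) :
    |∑ i ∈ range N, Real.sin ((i + 1 : ℕ) * x) / (i + 1)| ≤ 6 := by
  have h2 : |Real.sin x| ≤ 2 * |Real.sin (x / 2)| := by
    rw [show Real.sin x = 2 * Real.sin (x / 2) * Real.cos (x / 2) by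
      rw [← Real.sin_two_mul]; ring_nf, abs_mul, abs_mul, abs_two]
    exact mul_le_of_le_one_right (by positivity) (Real.abs_cos_le_one _)
  have hterm : ∀ i : ℕ, |Real.sin ((i + 1 : ℕ) * x) / (i + 1)| ≤ 2 * |Real.sin (x / 2)| := by
    intro i
    rw [abs_div, abs_of_pos (by positivity : (0 : ℝ) < i + 1), div_le_iff₀ (by positivity)]
    refine (abs_sin_nat_mul (i + 1) x).trans ?_
    push_cast
    nlinarith
  have hhead : ∀ m : ℕ, |∑ i ∈ range m, Real.sin ((i + 1 : ℕ) * x) / (i + 1)| ≤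
      m * (2 * |Real.sin (x / 2)|) := fun m => by
    refine (abs_sum_le_sum_abs _ _).trans ((sum_le_sum fun i _ => hterm i).trans ?_)
    simp
  rcases (abs_nonneg (Real.sin (x / 2))).eq_or_lt with hs | hs
  · refine (hhead N).trans ?_
    rw [← hs]
    norm_num
  set s := |Real.sin (x / 2)| with hsdef
  set m := ⌈1 / s⌉₊ with hm
  have hs1 : s ≤ 1 := Real.abs_sin_le_one _
  have hm1 : (m : ℝ) < 1 / s + 1 := Nat.ceil_lt_add_one (by positivity)
  have hm2 : 1 / s ≤ m := Nat.le_ceil _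
  have hms : m * (2 * s) ≤ 4 := by
    have : (1 / s + 1) * (2 * s) ≤ 4 := by
      rw [add_mul, one_div, ← mul_assoc, mul_comm s⁻¹ 2, mul_assoc, inv_mul_cancel₀ hs.ne']
      linarith
    nlinarith
  rcases le_or_gt N m with hNm | hNm
  · refine (hhead N).trans ?_
    have : (N : ℝ) ≤ m := by exact_mod_cast hNm
    nlinarith
  let S : ℕ → ℝ := fun k => ∑ i ∈ range k, Real.sin ((i + 1 : ℕ) * x) / (i + 1)
  let P : ℕ → ℝ := fun k => ∑ i ∈ range k, Real.sin ((i + 1 : ℕ) * x)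
  have hP : ∀ k, |P k| ≤ 1 / s := fun k => by
    rw [le_div_iff₀ hs, mul_comm]
    exact sin_mul_abs_sum_sin x k
  have key : ∀ k, m ≤ k →
      |S k - S m - P k / (k + 1)| ≤ 1 / s * (2 / (m + 1) - 1 / (k + 1)) := by
    intro k hk
    induction k, hk using Nat.le_induction with
    | base =>
      rw [sub_self, zero_sub, abs_neg, abs_div, abs_of_pos (by positivity : (0 : ℝ) < m + 1),
        show (1 : ℝ) / s * (2 / (m + 1) - 1 / (m + 1)) = 1 / s / (m + 1) by ring]
      exact div_le_div_of_nonneg_right (hP m) (by positivity)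
    | succ k _ ih =>
      have e : S (k + 1) - S m - P (k + 1) / ((k + 1 : ℕ) + 1) =
          (S k - S m - P k / (k + 1)) + P (k + 1) * (1 / ((k : ℝ) + 1) - 1 / ((k : ℝ) + 2)) := by
        simp only [S, P, sum_range_succ]
        push_cast
        rw [show (k : ℝ) + 1 + 1 = k + 2 by ring]
        ring
      rw [e]
      have hd : (0 : ℝ) ≤ 1 / ((k : ℝ) + 1) - 1 / ((k : ℝ) + 2) :=
        sub_nonneg.2 (one_div_le_one_div_of_le (by positivity) (by linarith))
      refine (abs_add_le _ _).trans ?_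
      rw [abs_mul, abs_of_nonneg hd]
      refine (add_le_add ih (mul_le_mul_of_nonneg_right (hP (k + 1)) hd)).trans_eq ?_
      push_cast
      rw [show (k : ℝ) + 1 + 1 = k + 2 by ring]
      ring
  have hN := key N hNm.le
  have hm3 : 1 / s * (2 / ((m : ℝ) + 1)) ≤ 2 := by
    rw [← mul_div_assoc, div_le_iff₀ (by positivity)]
    linarith
  have hPN : |P N / (N + 1)| ≤ 1 / s * (1 / (N + 1)) := by
    rw [abs_div, abs_of_pos (by positivity : (0 : ℝ) < N + 1),
      show (1 : ℝ) / s * (1 / (N + 1)) = 1 / s / (N + 1) by ring]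
    exact div_le_div_of_nonneg_right (hP N) (by positivity)
  have hS := (hhead m).trans hms
  show |S N| ≤ 6
  calc |S N| = |(S N - S m - P N / (N + 1)) + P N / (N + 1) + S m| := by congr 1; ring
    _ ≤ _ := abs_add_three _ _ _
    _ ≤ 1 / s * (2 / (m + 1) - 1 / (N + 1)) + 1 / s * (1 / (N + 1)) + 4 :=
      add_le_add (add_le_add hN hPN) hS
    _ ≤ 6 := by linarith

/-- The sine polynomial behind the test polynomial. -/
noncomputable def sineF (N : ℕ) (φ θ : ℝ) : ℝ :=
  ∑ i ∈ range N, Real.cos ((i + 1 : ℕ) * φ) / (i + 1) * Real.sin ((i + 1 : ℕ) * θ)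

theorem cheb_two_cos (θ : ℝ) : ∀ k : ℕ,
    (cheb k).eval (2 * Real.cos θ) * Real.sin θ = Real.sin ((k + 1 : ℕ) * θ)
  | 0 => by simp [cheb]
  | 1 => by
    simp only [cheb, eval_X]
    norm_num
    rw [Real.sin_two_mul]
    ring
  | k + 2 => by
    have h1 := cheb_two_cos θ (k + 1)
    have h0 := cheb_two_cos θ k
    simp only [cheb, eval_sub, eval_mul, eval_X]
    push_cast at h0 h1 ⊢
    rw [sub_mul, mul_assoc, h1, h0,
      show ((k : ℝ) + 2 + 1) * θ = ((k : ℝ) + 1 + 1) * θ + θ by ring,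
      show ((k : ℝ) + 1) * θ = ((k : ℝ) + 1 + 1) * θ - θ by ring,
      Real.sin_add (((k : ℝ) + 1 + 1) * θ) θ, Real.sin_sub]
    ring

theorem poly_two_cos (N : ℕ) (φ θ : ℝ) :
    (poly N φ).eval (2 * Real.cos θ) * Real.sin θ = Real.sin φ * sineF N φ θ := by
  rw [poly, eval_finsetSum, sum_mul, sineF, mul_sum]
  refine sum_congr rfl fun k _ => ?_
  rw [eval_mul, eval_C, mul_assoc, cheb_two_cos, amp]
  push_cast
  ring

theorem cheb_eval_neg (t : ℝ) : ∀ k : ℕ, (cheb k).eval (-t) = (-1) ^ k * (cheb k).eval t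
  | 0 => by simp [cheb]
  | 1 => by simp [cheb]
  | k + 2 => by
    simp only [cheb, eval_sub, eval_mul, eval_X, cheb_eval_neg t (k + 1), cheb_eval_neg t k]
    ring

theorem poly_eval_neg (N : ℕ) (φ t : ℝ) :
    (poly N φ).eval (-t) = -(poly N (Real.pi - φ)).eval t := by
  simp only [poly, eval_finsetSum, eval_mul, eval_C, ← sum_neg_distrib, cheb_eval_neg]
  refine sum_congr rfl fun k _ => ?_
  have e : Real.cos (((k : ℝ) + 1) * (Real.pi - φ)) =
      (-1) ^ (k + 1) * Real.cos (((k : ℝ) + 1) * φ) := by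
    rw [← Real.cos_nat_mul_pi_sub (((k : ℝ) + 1) * φ) (k + 1)]
    push_cast
    ring_nf
  simp only [amp, Real.sin_pi_sub, e]
  ring

theorem abs_sineF_le (N : ℕ) (φ θ : ℝ) : |sineF N φ θ| ≤ 6 := by
  have e : sineF N φ θ = ((∑ i ∈ range N, Real.sin ((i + 1 : ℕ) * (θ + φ)) / (i + 1)) +
      ∑ i ∈ range N, Real.sin ((i + 1 : ℕ) * (θ - φ)) / (i + 1)) / 2 := by
    rw [← sum_add_distrib, sum_div, sineF]
    refine sum_congr rfl fun i _ => ?_
    rw [mul_add, mul_sub, Real.sin_add, Real.sin_sub]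
    ring
  rw [e, abs_div, abs_two]
  have := abs_add_le (∑ i ∈ range N, Real.sin ((i + 1 : ℕ) * (θ + φ)) / (i + 1))
    (∑ i ∈ range N, Real.sin ((i + 1 : ℕ) * (θ - φ)) / (i + 1))
  linarith [abs_sine_series (θ + φ) N, abs_sine_series (θ - φ) N]

theorem abs_deriv_le (N : ℕ) {φ t : ℝ} (hc : 17 / 20 ≤ Real.cos t)
    (hst : |Real.sin t| ≤ |Real.sin φ| / 2) :
    |Real.sin φ| * |∑ i ∈ range N, Real.cos ((i + 1 : ℕ) * φ) * Real.cos ((i + 1 : ℕ) * t)| ≤
      6 := by
  have e : (∑ i ∈ range N, Real.cos ((i + 1 : ℕ) * φ) * Real.cos ((i + 1 : ℕ) * t)) =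
      ((∑ i ∈ range N, Real.cos ((i + 1 : ℕ) * (φ + t))) +
        ∑ i ∈ range N, Real.cos ((i + 1 : ℕ) * (φ - t))) / 2 := by
    rw [← sum_add_distrib, sum_div]
    refine sum_congr rfl fun i _ => ?_
    rw [mul_add, mul_sub, Real.cos_add, Real.cos_sub]
    ring
  have half : ∀ y : ℝ, |Real.sin y| ≤ 2 * |Real.sin (y / 2)| := fun y => by
    rw [show Real.sin y = 2 * Real.sin (y / 2) * Real.cos (y / 2) by
      rw [← Real.sin_two_mul]; ring_nf, abs_mul, abs_mul, abs_two]
    exact mul_le_of_le_one_right (by positivity) (Real.abs_cos_le_one _)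
  have hpm : |Real.cos φ * Real.sin t| ≤ |Real.sin φ| / 2 := by
    rw [abs_mul]
    exact (mul_le_of_le_one_left (abs_nonneg _) (Real.abs_cos_le_one _)).trans hst
  have hmain : |Real.sin φ| * (17 / 20) ≤ |Real.sin φ * Real.cos t| := by
    rw [abs_mul]
    exact mul_le_mul_of_nonneg_left (hc.trans (le_abs_self _)) (abs_nonneg _)
  have hp : |Real.sin φ| * (7 / 20) ≤ 2 * |Real.sin ((φ + t) / 2)| := by
    refine le_trans ?_ (half (φ + t))
    rw [Real.sin_add]
    have := abs_sub_abs_le_abs_sub (Real.sin φ * Real.cos t) (-(Real.cos φ * Real.sin t))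
    rw [abs_neg, sub_neg_eq_add] at this
    linarith
  have hm : |Real.sin φ| * (7 / 20) ≤ 2 * |Real.sin ((φ - t) / 2)| := by
    refine le_trans ?_ (half (φ - t))
    rw [Real.sin_sub]
    have := abs_sub_abs_le_abs_sub (Real.sin φ * Real.cos t) (Real.cos φ * Real.sin t)
    linarith
  have hP := sin_mul_abs_sum_cos (φ + t) N
  have hM := sin_mul_abs_sum_cos (φ - t) N
  rw [e, abs_div, abs_two]
  have hadd := abs_add_le (∑ i ∈ range N, Real.cos ((i + 1 : ℕ) * (φ + t)))
    (∑ i ∈ range N, Real.cos ((i + 1 : ℕ) * (φ - t)))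
  have h1 := mul_le_mul_of_nonneg_right hp
    (abs_nonneg (∑ i ∈ range N, Real.cos ((i + 1 : ℕ) * (φ + t))))
  have h2 := mul_le_mul_of_nonneg_right hm
    (abs_nonneg (∑ i ∈ range N, Real.cos ((i + 1 : ℕ) * (φ - t))))
  nlinarith [abs_nonneg (Real.sin φ)]

theorem abs_sineF_small (N : ℕ) {φ θ : ℝ} (h0 : 0 ≤ θ) (h1 : θ ≤ Real.pi / 2)
    (hsmall : Real.sin θ ≤ |Real.sin φ| / 2) :
    |Real.sin φ * sineF N φ θ| ≤ 12 * Real.sin θ := by
  have hcos : 17 / 20 ≤ Real.cos θ := by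
    have h := Real.sin_sq_add_cos_sq θ
    have hc0 : 0 ≤ Real.cos θ := Real.cos_nonneg_of_mem_Icc ⟨by linarith [Real.pi_pos], h1⟩
    have hs0 : 0 ≤ Real.sin θ := Real.sin_nonneg_of_nonneg_of_le_pi h0 (by linarith [Real.pi_pos])
    nlinarith [Real.abs_sin_le_one φ]
  let g : ℝ → ℝ := fun t => Real.sin φ * sineF N φ t
  let g' : ℝ → ℝ := fun t => Real.sin φ *
    ∑ i ∈ range N, Real.cos ((i + 1 : ℕ) * φ) * Real.cos ((i + 1 : ℕ) * t)
  have hderiv : ∀ t ∈ Set.Icc (0 : ℝ) θ, HasDerivWithinAt g (g' t) (Set.Icc (0 : ℝ) θ) t := by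
    intro t _
    refine (HasDerivAt.const_mul (Real.sin φ) ?_).hasDerivWithinAt
    refine HasDerivAt.fun_sum fun i _ => ?_
    have := (((hasDerivAt_id t).const_mul ((i + 1 : ℕ) : ℝ)).sin.const_mul
      (Real.cos ((i + 1 : ℕ) * φ) / ((i : ℝ) + 1)))
    refine this.congr_deriv ?_
    simp only [id_eq, Nat.cast_add, Nat.cast_one, mul_one]
    field_simp
  have hbound : ∀ t ∈ Set.Ico (0 : ℝ) θ, ‖g' t‖ ≤ 6 := by
    intro t ht
    rw [Real.norm_eq_abs, abs_mul]
    refine abs_deriv_le N ?_ ?_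
    · exact hcos.trans (Real.cos_le_cos_of_nonneg_of_le_pi ht.1 (by linarith [Real.pi_pos]) ht.2.le)
    · rw [abs_of_nonneg (Real.sin_nonneg_of_nonneg_of_le_pi ht.1
        (by linarith [Real.pi_pos, ht.2]))]
      exact (Real.sin_le_sin_of_le_of_le_pi_div_two (by linarith [Real.pi_pos, ht.1]) h1
        ht.2.le).trans hsmall
  have h := norm_image_sub_le_of_norm_deriv_le_segment' hderiv hbound θ ⟨h0, le_rfl⟩
  have hg0 : g 0 = 0 := by simp [g, sineF]
  rw [hg0, sub_zero, sub_zero, Real.norm_eq_abs] at h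
  refine h.trans ?_
  have := Real.mul_le_sin h0 h1
  have hpi := Real.pi_lt_d2
  have : θ ≤ 2 * Real.sin θ := by
    rw [div_mul_eq_mul_div, div_le_iff₀ Real.pi_pos] at this
    have hs0 : 0 ≤ Real.sin θ := Real.sin_nonneg_of_nonneg_of_le_pi h0 (by linarith [Real.pi_pos])
    nlinarith
  linarith

theorem abs_poly_of_le_pi_div_two (N : ℕ) (φ : ℝ) {θ : ℝ} (h0 : 0 < θ) (h1 : θ ≤ Real.pi / 2) :
    |(poly N φ).eval (2 * Real.cos θ)| ≤ 12 := by
  have hs : 0 < Real.sin θ := Real.sin_pos_of_pos_of_lt_pi h0 (by linarith [Real.pi_pos])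
  refine le_of_mul_le_mul_right ?_ hs
  rw [← abs_of_pos hs, ← abs_mul, poly_two_cos, abs_of_pos hs]
  rcases le_or_gt (Real.sin θ) (|Real.sin φ| / 2) with hsmall | hbig
  · exact abs_sineF_small N h0.le h1 hsmall
  · rw [abs_mul]
    calc |Real.sin φ| * |sineF N φ θ| ≤ |Real.sin φ| * 6 :=
          mul_le_mul_of_nonneg_left (abs_sineF_le N φ θ) (abs_nonneg _)
      _ ≤ 12 * Real.sin θ := by linarith

/-- The uniform bound. -/
theorem abs_poly_le (N : ℕ) (φ : ℝ) : ∀ t ∈ Set.Icc (-2 : ℝ) 2, |(poly N φ).eval t| ≤ 12 := by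
  have hsub : Set.Ioo (-2 : ℝ) 2 ⊆ {t | |(poly N φ).eval t| ≤ 12} := by
    intro t ht
    show |(poly N φ).eval t| ≤ 12
    set θ := Real.arccos (t / 2) with hθ
    have ht' : t = 2 * Real.cos θ := by
      rw [hθ, Real.cos_arccos (by linarith [ht.1]) (by linarith [ht.2])]; ring
    have h0 : 0 < θ := Real.arccos_pos.2 (by linarith [ht.2])
    have hπ : θ < Real.pi := Real.arccos_lt_pi.2 (by linarith [ht.1])
    rcases le_or_gt θ (Real.pi / 2) with h | h
    · rw [ht']
      exact abs_poly_of_le_pi_div_two N φ h0 h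
    · rw [ht', show 2 * Real.cos θ = -(2 * Real.cos (Real.pi - θ)) by rw [Real.cos_pi_sub]; ring,
        poly_eval_neg, abs_neg]
      exact abs_poly_of_le_pi_div_two N _ (by linarith) (by linarith)
  have hclosed : IsClosed {t | |(poly N φ).eval t| ≤ 12} :=
    isClosed_le (poly N φ).continuous.abs continuous_const
  intro t ht
  exact hclosed.closure_subset_iff.2 hsub (by rw [closure_Ioo (by norm_num)]; exact ht)

theorem natDegree_cheb : ∀ k : ℕ, (cheb k).natDegree ≤ k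
  | 0 => by simp [cheb]
  | 1 => by simp [cheb]
  | k + 2 => by
    rw [cheb]
    refine natDegree_sub_le_of_le (natDegree_mul_le.trans ?_) ((natDegree_cheb k).trans ?_)
      |>.trans (max_self (k + 2)).le
    · have := natDegree_cheb (k + 1)
      rw [natDegree_X]
      omega
    · omega

theorem natDegree_poly (N : ℕ) (φ : ℝ) : (poly N φ).natDegree ≤ N :=
  natDegree_sum_le_of_forall_le _ _ fun k hk =>
    (natDegree_C_mul_le _ _).trans ((natDegree_cheb k).trans (Finset.mem_range.1 hk).le)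

end Vale.Agent.P096.Full.Key.ScalarPoly
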