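import Vale.Agent.P096.Full.Key.Ops

/-!
P096, KEY: the pairing of one coefficient with one slot, and the linear maps it produces.
-/

open scoped InnerProductSpace

namespace Vale.Agent.P096.Full.Key

universe u v

attribute [local instance] Letters.fin Letters.grp

variable {K : Type u} [NormedAddCommGroup K] [InnerProductSpace ℂ K] [CompleteSpace K]
  (E : Letters K)

section Lin

variable {F : Type v} [AddCommGroup F] [Module ℂ F]

/-- The mean over everything but the two slot letters. -/
noncomputable def mid (i k l : ℕ)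
    (f : List (Alph E) → Alph E → Alph E → List (Alph E) → List (Alph E) → F) : F :=
  avgW i fun P => avgT E 3 fun g => avgT E 3 fun h => avgW k fun V => avgW l fun c => f P g h V c

lemma mid_congr {i k l : ℕ}
    {f f' : List (Alph E) → Alph E → Alph E → List (Alph E) → List (Alph E) → F}
    (h : ∀ P g g' V c, P.length = i → g.1.1 = 3 → g'.1.1 = 3 → V.length = k → c.length = l →
      f P g g' V c = f' P g g' V c) : mid E i k l f = mid E i k l f' :=
  avgW_congr fun _ hP => avgT_congr E fun _ hg => avgT_congr E fun _ hg' =>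
    avgW_congr fun _ hV => avgW_congr fun _ hc => h _ _ _ _ _ hP hg hg' hV hc

lemma mid_add (i k l : ℕ)
    (f f' : List (Alph E) → Alph E → Alph E → List (Alph E) → List (Alph E) → F) :
    mid E i k l (fun P g h V c => f P g h V c + f' P g h V c) =
      mid E i k l f + mid E i k l f' := by
  simp only [mid, avgW_add, avgT_add]

lemma mid_smul (i k l : ℕ) (z : ℂ)
    (f : List (Alph E) → Alph E → Alph E → List (Alph E) → List (Alph E) → F) :
    mid E i k l (fun P g h V c => z • f P g h V c) = z • mid E i k l f := by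
  simp only [mid, avgW_smul, avgT_smul]

lemma mid_sub (i k l : ℕ)
    (f f' : List (Alph E) → Alph E → Alph E → List (Alph E) → List (Alph E) → F) :
    mid E i k l (fun P g h V c => f P g h V c - f' P g h V c) =
      mid E i k l f - mid E i k l f' := by
  simp only [mid, avgW_sub, avgT_sub]

lemma mid_const (i k l : ℕ) (z : F) : mid E i k l (fun _ _ _ _ _ => z) = z := by
  simp only [mid, avgW_const, avgT_const]

lemma mid_map {F' : Type*} [AddCommGroup F'] [Module ℂ F'] (T : F →ₗ[ℂ] F') (i k l : ℕ)
    (f : List (Alph E) → Alph E → Alph E → List (Alph E) → List (Alph E) → F) :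
    T (mid E i k l f) = mid E i k l fun P g h V c => T (f P g h V c) := by
  simp only [mid, avgW_map, avgT_map]

lemma mid_shiftR (j : E.ι) (i k l : ℕ)
    (f : List (Alph E) → Alph E → Alph E → List (Alph E) → List (Alph E) → F) :
    mid E i k l (fun P g h V c => f P (shiftR E j g) h V c) = mid E i k l f := by
  simp only [mid]
  exact avgW_congr fun P _ => avgT_shiftR E j 3 fun g =>
    avgT E 3 fun h => avgW k fun V => avgW l fun c => f P g h V c

lemma mid_shiftL (j : E.ι) (i k l : ℕ)
    (f : List (Alph E) → Alph E → Alph E → List (Alph E) → List (Alph E) → F) :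
    mid E i k l (fun P g h V c => f P g (shiftL E j h) V c) = mid E i k l f := by
  simp only [mid]
  exact avgW_congr fun P _ => avgT_congr E fun g _ => avgT_shiftL E j 3 fun h =>
    avgW k fun V => avgW l fun c => f P g h V c

/-- The signed mean over the two slot letters. -/
noncomputable def four (f : Alph E → Alph E → F) : F :=
  (avgT E 0 fun x => avgT E 1 (f x) - avgT E 2 (f x)) -
    avgT E 2 fun x => avgT E 1 (f x) - avgT E 2 (f x)

lemma four_congr {f g : Alph E → Alph E → F} (h : ∀ x y, f x y = g x y) :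
    four E f = four E g := by
  rw [show f = g from funext fun x => funext (h x)]

lemma four_add (f g : Alph E → Alph E → F) :
    four E (fun x y => f x y + g x y) = four E f + four E g := by
  simp only [four, avgT_add, avgT_sub]; abel

lemma four_sub (f g : Alph E → Alph E → F) :
    four E (fun x y => f x y - g x y) = four E f - four E g := by
  simp only [four, avgT_sub]; abel

lemma four_left (f : Alph E → F) : four E (fun x _ => f x) = 0 := by
  simp only [four, avgT_const, sub_self]

lemma four_right (f : Alph E → F) : four E (fun _ y => f y) = 0 := by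
  simp only [four, avgT_const, sub_self]

lemma avgW_avgT (n : ℕ) (t : Fin 4) (f : List (Alph E) → Alph E → F) :
    avgW n (fun s => avgT E t (f s)) = avgT E t fun x => avgW n fun s => f s x := by
  simp only [avgT, avgW_smul, avgW_sum]

lemma avgW_four (n : ℕ) (f : List (Alph E) → Alph E → Alph E → F) :
    avgW n (fun s => four E (f s)) = four E fun x y => avgW n fun s => f s x y := by
  simp only [four, avgW_sub, avgW_avgT]

lemma avgT_comm (t t' : Fin 4) (f : Alph E → Alph E → F) :
    avgT E t (fun x => avgT E t' (f x)) = avgT E t' fun y => avgT E t fun x => f x y := by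
  simp only [avgT, ← Finset.smul_sum]
  rw [Finset.sum_comm]

lemma avgT_four (t : Fin 4) (f : Alph E → Alph E → Alph E → F) :
    avgT E t (fun z => four E (f z)) = four E fun x y => avgT E t fun z => f z x y := by
  simp only [four, avgT_sub, avgT_comm E t]

end Lin

lemma norm_mid_le {F : Type v} [NormedAddCommGroup F] [NormedSpace ℂ F] {i k l : ℕ}
    {f : List (Alph E) → Alph E → Alph E → List (Alph E) → List (Alph E) → F} {C : ℝ}
    (h : ∀ P g g' V c, P.length = i → c.length = l → ‖f P g g' V c‖ ≤ C) : ‖mid E i k l f‖ ≤ C :=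
  norm_avgW_le fun _ hP => norm_avgT_le E fun _ => norm_avgT_le E fun _ =>
    norm_avgW_le fun _ _ => norm_avgW_le fun _ hc => h _ _ _ _ _ hP hc

lemma norm_four_le {f : Alph E → Alph E → ℂ} {C : ℝ} (h : ∀ x y, ‖f x y‖ ≤ C) :
    ‖four E f‖ ≤ 4 * C := by
  have hi : ∀ x, ‖avgT E 1 (f x) - avgT E 2 (f x)‖ ≤ 2 * C := fun x =>
    (norm_sub_le _ _).trans (by
      linarith [norm_avgT_le E (t := 1) (h x), norm_avgT_le E (t := 2) (h x)])
  exact (norm_sub_le _ _).trans (by
    linarith [norm_avgT_le E (t := 0) hi, norm_avgT_le E (t := 2) hi])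

/-- Removing the products left and right of the slot. -/
noncomputable def pull (P : List (Alph E)) (g h : Alph E) (V : List (Alph E)) : K →L[ℂ] K :=
  star (wB E (h :: V)) * star (wA E (P ++ [g]))

/-- The left map at the slot itself. -/
noncomputable def f0 (z : K →L[ℂ] K) (P : List (Alph E)) (g h : Alph E) (V _c : List (Alph E)) :
    K :=
  pull E P g h V (com (wA E (P ++ [g]) * z) (wB E (h :: V)) E.v)

/-- The right map at the slot itself. -/
noncomputable def g0 (y : K →L[ℂ] K) (P : List (Alph E)) (g h : Alph E) (V _c : List (Alph E)) :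
    K :=
  pull E P g h V (wB E (h :: V) (com (wA E (P ++ [g])) y E.v))

/-- The left map for a split to the right of the slot. -/
noncomputable def fR (j : ℕ) (z : K →L[ℂ] K) (P : List (Alph E)) (g h : Alph E)
    (V c : List (Alph E)) : K :=
  pull E P g h V (com (wA E (P ++ [g]) * z * (valA E h * wA E (V.take j ++ c)))
    (wB E (inv (bar E) c ++ V.drop j)) E.v)

/-- The right map for a split to the left of the slot. -/
noncomputable def gL (r' : ℕ) (y : K →L[ℂ] K) (P : List (Alph E)) (g h : Alph E)
    (V c : List (Alph E)) : K :=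
  pull E P g h V (com (wA E (P.take r' ++ c))
    (wB E (h :: V) * y * (valB E g * wB E (inv (bar E) c ++ P.drop r'))) E.v)

/-- The left map of one split. -/
noncomputable def Lmap (n r r' l : ℕ) (z : K →L[ℂ] K) : K :=
  if r' = r then mid E (r - 2) (n - r - 2) l (f0 E z)
  else if r + 2 ≤ r' then mid E (r - 2) (n - r - 2) l (fR E (r' - r - 2) z)
  else 0

/-- The right map of one split. -/
noncomputable def Lam (n r r' l : ℕ) (y : K →L[ℂ] K) : K :=
  if r' = r then mid E (r - 2) (n - r - 2) l (g0 E y)
  else if r' + 2 ≤ r then mid E (r - 2) (n - r - 2) l (gL E r' y)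
  else 0

lemma com_lin_left {R : Type*} [Ring R] [Algebra ℂ R] (t : ℂ) (x x' y : R) :
    com (t • x + x') y = t • com x y + com x' y := by
  simp only [com, add_mul, mul_add, smul_mul_assoc, mul_smul_comm, smul_sub]; abel

lemma com_lin_right {R : Type*} [Ring R] [Algebra ℂ R] (t : ℂ) (x y y' : R) :
    com x (t • y + y') = t • com x y + com x y' := by
  simp only [com, add_mul, mul_add, smul_mul_assoc, mul_smul_comm, smul_sub]; abel

lemma Lmap_lin (n r r' l : ℕ) (x y : K →L[ℂ] K) (t : ℂ) :
    Lmap E n r r' l (t • x + y) = t • Lmap E n r r' l x + Lmap E n r r' l y := by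
  simp only [Lmap]
  split_ifs
  · rw [← mid_smul, ← mid_add]
    refine mid_congr E fun P g h V c _ _ _ _ _ => ?_
    simp only [f0, mul_add, mul_smul_comm, com_lin_left, add_apply', smul_apply', map_add,
      map_smul]
  · rw [← mid_smul, ← mid_add]
    refine mid_congr E fun P g h V c _ _ _ _ _ => ?_
    simp only [fR, mul_add, mul_smul_comm, add_mul, smul_mul_assoc, com_lin_left, add_apply',
      smul_apply', map_add, map_smul]
  · simp
where
  add_apply' {x y : K →L[ℂ] K} {z : K} : (x + y) z = x z + y z := rfl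
  smul_apply' {x : K →L[ℂ] K} {t : ℂ} {z : K} : (t • x) z = t • x z := rfl

lemma Lam_lin (n r r' l : ℕ) (x y : K →L[ℂ] K) (t : ℂ) :
    Lam E n r r' l (t • x + y) = t • Lam E n r r' l x + Lam E n r r' l y := by
  simp only [Lam]
  split_ifs
  · rw [← mid_smul, ← mid_add]
    refine mid_congr E fun P g h V c _ _ _ _ _ => ?_
    simp only [g0, com_lin_right, add_apply', smul_apply', map_add, map_smul]
  · rw [← mid_smul, ← mid_add]
    refine mid_congr E fun P g h V c _ _ _ _ _ => ?_
    simp only [gL, mul_add, mul_smul_comm, add_mul, smul_mul_assoc, com_lin_right, add_apply',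
      smul_apply', map_add, map_smul]
  · simp
where
  add_apply' {x y : K →L[ℂ] K} {z : K} : (x + y) z = x z + y z := rfl
  smul_apply' {x : K →L[ℂ] K} {t : ℂ} {z : K} : (t • x) z = t • x z := rfl

variable {E} {γ ν : ℝ}

lemma norm_pull_le (P : List (Alph E)) (g h : Alph E) (V : List (Alph E)) (z : K) :
    ‖pull E P g h V z‖ ≤ ‖z‖ :=
  (norm_apply_le_self (norm_star_le_one (wB_spec E _).2.1) _).trans
    (norm_apply_le_self (norm_star_le_one (wA_spec E _).2.1) _)

lemma norm_mul_le_one {x y : K →L[ℂ] K} (hx : ‖x‖ ≤ 1) (hy : ‖y‖ ≤ 1) : ‖x * y‖ ≤ 1 :=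
  (norm_mul_le _ _).trans (by simpa using mul_le_mul hx hy (norm_nonneg y) zero_le_one)

lemma norm_three_le {p z q : K →L[ℂ] K} (hp : ‖p‖ ≤ 1) (hq : ‖q‖ ≤ 1) : ‖p * z * q‖ ≤ ‖z‖ := by
  refine (norm_mul_le _ _).trans ((mul_le_mul (norm_mul_le p z) hq (norm_nonneg q)
    (by positivity)).trans ?_)
  rw [mul_one]
  exact mul_le_of_le_one_left (norm_nonneg z) hp

lemma Lmap_le (D : Defects E γ ν) (n r r' l : ℕ) {z : K →L[ℂ] K} (hz : z ∈ E.A) :
    ‖Lmap E n r r' l z‖ ≤ ν * ‖z‖ := by
  have hν := D.ν_nonneg
  simp only [Lmap]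
  split_ifs
  · refine norm_mid_le E fun P g h V c _ _ => (norm_pull_le _ _ _ _ _).trans
      (D.vec_le (mul_mem (wA_spec E _).1 hz) (wB_spec E _).1 ?_)
    exact (mul_le_mul ((norm_mul_le _ _).trans (mul_le_of_le_one_left (norm_nonneg z)
      (norm_le_one (wA_spec E _).2.1))) (norm_le_one (wB_spec E _).2.1) (norm_nonneg _)
      (norm_nonneg _)).trans_eq (mul_one _)
  · refine norm_mid_le E fun P g h V c _ _ => (norm_pull_le _ _ _ _ _).trans
      (D.vec_le (mul_mem (mul_mem (wA_spec E _).1 hz) (mul_mem (valA_spec E _).1 (wA_spec E _).1))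
        (wB_spec E _).1 ?_)
    exact (mul_le_mul (norm_three_le (norm_le_one (wA_spec E _).2.1) (norm_mul_le_one
      (norm_le_one (valA_spec E _).2.1) (norm_le_one (wA_spec E _).2.1)))
      (norm_le_one (wB_spec E _).2.1) (norm_nonneg _) (norm_nonneg _)).trans_eq (mul_one _)
  · rw [norm_zero]; positivity

lemma Lam_le (D : Defects E γ ν) (n r r' l : ℕ) {y : K →L[ℂ] K} (hy : y ∈ E.B) :
    ‖Lam E n r r' l y‖ ≤ ν * ‖y‖ := by
  have hν := D.ν_nonneg
  simp only [Lam]
  split_ifs
  · refine norm_mid_le E fun P g h V c _ _ => ((norm_pull_le _ _ _ _ _).trans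
      (norm_apply_le_self (norm_le_one (wB_spec E _).2.1) _)).trans
      (D.vec_le (wA_spec E _).1 hy ?_)
    exact mul_le_of_le_one_left (norm_nonneg y) (norm_le_one (wA_spec E _).2.1)
  · refine norm_mid_le E fun P g h V c _ _ => (norm_pull_le _ _ _ _ _).trans
      (D.vec_le (wA_spec E _).1
        (mul_mem (mul_mem (wB_spec E _).1 hy) (mul_mem (valB_spec E _).1 (wB_spec E _).1)) ?_)
    exact (mul_le_mul (norm_le_one (wA_spec E _).2.1) (norm_three_le
      (norm_le_one (wB_spec E _).2.1) (norm_mul_le_one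
      (norm_le_one (valB_spec E _).2.1) (norm_le_one (wB_spec E _).2.1)))
      (norm_nonneg _) zero_le_one).trans_eq (one_mul _)
  · rw [norm_zero]; positivity

lemma star_wA_shift (P : List (Alph E)) {g : Alph E} (hg : g.1.1 = 3) (i : E.ι) :
    wA E (P ++ [shiftR E i g]) = wA E (P ++ [g]) * E.a i := by
  simp [wA, (val_shiftR E i hg).1, mul_assoc]

lemma wB_shift (V : List (Alph E)) {h : Alph E} (hh : h.1.1 = 3) (j : E.ι) :
    wB E (shiftL E j h :: V) = wB E (h :: V) * E.b j := by
  simp [wB, (val_shiftL E j hh).2, mul_assoc]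

lemma unit_a (i : E.ι) : E.a i * star (E.a i) = 1 ∧ star (E.a i) * E.a i = 1 := by
  simp [E.a_star, ← map_mul]

lemma unit_b (j : E.ι) : E.b j * star (E.b j) = 1 ∧ star (E.b j) * E.b j = 1 := by
  simp [E.b_star, ← E.b_mul, E.b_one]

lemma pull_shiftR (P : List (Alph E)) {g : Alph E} (hg : g.1.1 = 3) (h : Alph E)
    (V : List (Alph E)) (i : E.ι) (z : K) :
    E.a i (pull E P (shiftR E i g) h V z) = pull E P g h V z := by
  show (E.a i * (star (wB E (h :: V)) * star (wA E (P ++ [shiftR E i g])))) z =
    (star (wB E (h :: V)) * star (wA E (P ++ [g]))) z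
  rw [star_wA_shift P hg, star_mul, ← mul_assoc, E.a_comm i _ (star_mem (wB_spec E _).1),
    mul_assoc, ← mul_assoc (E.a i), (unit_a i).1, one_mul]

lemma pull_shiftL (P : List (Alph E)) (g : Alph E) {h : Alph E} (hh : h.1.1 = 3)
    (V : List (Alph E)) (j : E.ι) (z : K) :
    E.b j (pull E P g (shiftL E j h) V z) = pull E P g h V z := by
  show (E.b j * (star (wB E (shiftL E j h :: V)) * star (wA E (P ++ [g])))) z =
    (star (wB E (h :: V)) * star (wA E (P ++ [g]))) z
  rw [wB_shift V hh, star_mul, ← mul_assoc, ← mul_assoc, (unit_b j).1, one_mul]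

lemma com_mul_a {x y : K →L[ℂ] K} (hx : x ∈ E.A) (hy : y ∈ E.B) (j : E.ι) :
    com (x * E.a j) y E.v = com x (y * E.b j) E.v := by
  have h1 : com (x * E.a j) y = com x y * E.a j := by
    simp only [com, sub_mul, mul_assoc, E.a_comm j y hy]
  have h2 : com x (y * E.b j) = com x y * E.b j := by
    simp only [com, sub_mul, mul_assoc, E.b_comm j x hx]
  rw [h1, h2]
  exact congrArg (fun z => com x y z) (E.a_v j)

lemma com_mul_b {x y : K →L[ℂ] K} (hx : x ∈ E.A) (hy : y ∈ E.B) (i : E.ι) :
    com x (y * E.b i) E.v = com (x * E.a i) y E.v := (com_mul_a hx hy i).symm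

/-- Left maps are equivariant. -/
theorem Lmap_equi (n r r' l : ℕ) {z : K →L[ℂ] K} (hz : z ∈ E.A) (i j : E.ι) :
    Lmap E n r r' l (E.a i * z * E.a j) = E.a i (E.b j (Lmap E n r r' l z)) := by
  have hl : ∀ z, Lmap E n r r' l (E.a i * z) = E.a i (Lmap E n r r' l z) := by
    intro z
    simp only [Lmap]
    split_ifs
    · refine Eq.trans ?_ (mid_map E (E.a i).toLinearMap _ _ _ _).symm
      refine Eq.trans ?_ (mid_shiftR E i _ _ _ _)
      refine mid_congr E fun P g h V c _ hg _ _ _ => ?_
      simp only [f0, ContinuousLinearMap.coe_coe, pull_shiftR P hg, star_wA_shift P hg, mul_assoc]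
    · refine Eq.trans ?_ (mid_map E (E.a i).toLinearMap _ _ _ _).symm
      refine Eq.trans ?_ (mid_shiftR E i _ _ _ _)
      refine mid_congr E fun P g h V c _ hg _ _ _ => ?_
      simp only [fR, ContinuousLinearMap.coe_coe, pull_shiftR P hg, star_wA_shift P hg, mul_assoc]
    · simp
  have hr : Lmap E n r r' l (z * E.a j) = E.b j (Lmap E n r r' l z) := by
    simp only [Lmap]
    split_ifs
    · refine Eq.trans ?_ (mid_map E (E.b j).toLinearMap _ _ _ _).symm
      refine Eq.trans ?_ (mid_shiftL E j _ _ _ _)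
      refine mid_congr E fun P g h V c _ _ hh _ _ => ?_
      simp only [f0, ContinuousLinearMap.coe_coe, pull_shiftL P g hh]
      rw [← mul_assoc, com_mul_a (mul_mem (wA_spec E _).1 hz) (wB_spec E _).1, wB_shift V hh]
    · refine Eq.trans ?_ (mid_map E (E.b j).toLinearMap _ _ _ _).symm
      refine Eq.trans ?_ (mid_shiftL E j _ _ _ _)
      refine mid_congr E fun P g h V c _ _ hh _ _ => ?_
      simp only [fR, ContinuousLinearMap.coe_coe, pull_shiftL P g hh, (val_shiftL E j hh).1,
        mul_assoc]
    · simp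
  rw [mul_assoc, hl, hr]

/-- Right maps are equivariant. -/
theorem Lam_equi (n r r' l : ℕ) {y : K →L[ℂ] K} (hy : y ∈ E.B) (i j : E.ι) :
    Lam E n r r' l (E.b j * y * E.b i) = E.a i (E.b j (Lam E n r r' l y)) := by
  have hb : E.b j * y ∈ E.B := mul_mem (E.memB.2.2 j) hy
  have hl : Lam E n r r' l (E.b j * y) = E.b j (Lam E n r r' l y) := by
    simp only [Lam]
    split_ifs
    · refine Eq.trans ?_ (mid_map E (E.b j).toLinearMap _ _ _ _).symm
      refine Eq.trans ?_ (mid_shiftL E j _ _ _ _)
      refine mid_congr E fun P g h V c _ _ hh _ _ => ?_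
      simp only [g0, ContinuousLinearMap.coe_coe, pull_shiftL P g hh, wB_shift V hh]
      congr 1
      rw [show com (wA E (P ++ [g])) (E.b j * y) = E.b j * com (wA E (P ++ [g])) y by
        simp only [com, mul_sub, mul_assoc]
        rw [← mul_assoc (E.b j) (wA E (P ++ [g])), E.b_comm j _ (wA_spec E _).1, mul_assoc]]
      rfl
    · refine Eq.trans ?_ (mid_map E (E.b j).toLinearMap _ _ _ _).symm
      refine Eq.trans ?_ (mid_shiftL E j _ _ _ _)
      refine mid_congr E fun P g h V c _ _ hh _ _ => ?_
      simp only [gL, ContinuousLinearMap.coe_coe, pull_shiftL P g hh, wB_shift V hh, mul_assoc]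
    · simp
  have hr : Lam E n r r' l (E.b j * y * E.b i) = E.a i (Lam E n r r' l (E.b j * y)) := by
    simp only [Lam]
    split_ifs
    · refine Eq.trans ?_ (mid_map E (E.a i).toLinearMap _ _ _ _).symm
      refine Eq.trans ?_ (mid_shiftR E i _ _ _ _)
      refine mid_congr E fun P g h V c _ hg _ _ _ => ?_
      simp only [g0, ContinuousLinearMap.coe_coe, pull_shiftR P hg, star_wA_shift P hg]
      rw [com_mul_b (wA_spec E _).1 hb]
    · refine Eq.trans ?_ (mid_map E (E.a i).toLinearMap _ _ _ _).symm
      refine Eq.trans ?_ (mid_shiftR E i _ _ _ _)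
      refine mid_congr E fun P g h V c _ hg _ _ _ => ?_
      simp only [gL, ContinuousLinearMap.coe_coe, pull_shiftR P hg, (val_shiftR E i hg).2,
        mul_assoc]
    · simp
  rw [hr, hl]

end Vale.Agent.P096.Full.Key
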