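import Vale.Agent.P096.Full.Key.Defs

/-!
P096, KEY: means over words, the alphabet of one test, and the slot weights.
-/

open scoped InnerProductSpace

namespace Vale.Agent.P096.Full.Key

universe u v

section AvgW

variable {L : Type u} [Fintype L] {E : Type v} [AddCommGroup E] [Module ℂ E]

lemma avgW_congr : ∀ {n : ℕ} {f g : List L → E}, (∀ s, s.length = n → f s = g s) →
    avgW n f = avgW n g
  | 0, f, g, h => h [] rfl
  | n + 1, f, g, h => by
    simp only [avgW]
    congr 1
    exact Finset.sum_congr rfl fun x _ => avgW_congr fun s hs => h _ (by simp [hs])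

lemma avgW_add : ∀ (n : ℕ) (f g : List L → E),
    avgW n (fun s => f s + g s) = avgW n f + avgW n g
  | 0, f, g => rfl
  | n + 1, f, g => by simp only [avgW, avgW_add n, Finset.sum_add_distrib, smul_add]

lemma avgW_smul : ∀ (n : ℕ) (c : ℂ) (f : List L → E),
    avgW n (fun s => c • f s) = c • avgW n f
  | 0, c, f => rfl
  | n + 1, c, f => by simp only [avgW, avgW_smul n, ← Finset.smul_sum, smul_comm c]

lemma avgW_zero : ∀ n : ℕ, avgW n (fun _ : List L => (0 : E)) = 0
  | 0 => rfl
  | n + 1 => by simp only [avgW, avgW_zero n, Finset.sum_const_zero, smul_zero]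

lemma avgW_neg (n : ℕ) (f : List L → E) : avgW n (fun s => - f s) = - avgW n f := by
  have := avgW_smul n (-1 : ℂ) f
  simpa only [neg_smul, one_smul] using this

lemma avgW_sub (n : ℕ) (f g : List L → E) :
    avgW n (fun s => f s - g s) = avgW n f - avgW n g := by
  simp only [sub_eq_add_neg, avgW_add, avgW_neg]

lemma avgW_sum {κ : Type*} (n : ℕ) (t : Finset κ) (f : κ → List L → E) :
    avgW n (fun s => ∑ i ∈ t, f i s) = ∑ i ∈ t, avgW n (f i) := by
  classical
  induction t using Finset.induction_on with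
  | empty => simpa using avgW_zero n
  | insert i t hi ih =>
    simp only [Finset.sum_insert hi, avgW_add, ih]

lemma avgW_const [Nonempty L] : ∀ (n : ℕ) (c : E), avgW n (fun _ : List L => c) = c
  | 0, c => rfl
  | n + 1, c => by
    simp only [avgW, avgW_const n, Finset.sum_const, Finset.card_univ]
    rw [← Nat.cast_smul_eq_nsmul ℂ, smul_smul,
      inv_mul_cancel₀ (Nat.cast_ne_zero.2 Fintype.card_ne_zero), one_smul]

lemma avgW_split : ∀ (m k : ℕ) (f : List L → E),
    avgW (m + k) f = avgW m fun u => avgW k fun w => f (u ++ w)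
  | 0, k, f => by simp [avgW]
  | m + 1, k, f => by
    rw [Nat.add_right_comm]
    simp only [avgW, avgW_split m k, List.cons_append]

lemma avgW_map {E' : Type*} [AddCommGroup E'] [Module ℂ E'] (T : E →ₗ[ℂ] E') :
    ∀ (n : ℕ) (f : List L → E), T (avgW n f) = avgW n fun s => T (f s)
  | 0, f => rfl
  | n + 1, f => by simp only [avgW, map_smul, map_sum, avgW_map T n]

lemma sum_ofFn [Nonempty L] : ∀ (n : ℕ) (f : List L → E),
    ∑ s : Fin n → L, f (List.ofFn s) = (Fintype.card L : ℂ) ^ n • avgW n f
  | 0, f => by simp [avgW]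
  | n + 1, f => by
    rw [← Equiv.sum_comp (Fin.consEquiv fun _ => L), Fintype.sum_prod_type]
    simp only [Fin.consEquiv_apply, List.ofFn_succ, Fin.cons_zero, Fin.cons_succ]
    rw [Finset.sum_congr rfl fun x _ => sum_ofFn n fun s => f (x :: s), ← Finset.smul_sum]
    simp only [avgW, smul_smul, pow_succ]
    rw [mul_assoc, mul_inv_cancel₀ (Nat.cast_ne_zero.2 Fintype.card_ne_zero), mul_one]

end AvgW

lemma norm_avgW_le {L : Type u} [Fintype L] [Nonempty L] {E : Type v} [NormedAddCommGroup E]
    [NormedSpace ℂ E] {c : ℝ} : ∀ {n : ℕ} {f : List L → E},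
    (∀ s, s.length = n → ‖f s‖ ≤ c) → ‖avgW n f‖ ≤ c
  | 0, f, h => h [] rfl
  | n + 1, f, h => by
    simp only [avgW, norm_smul, norm_inv, Complex.norm_natCast]
    rw [inv_mul_le_iff₀ (by exact_mod_cast Fintype.card_pos)]
    refine (norm_sum_le _ _).trans ?_
    refine (Finset.sum_le_card_nsmul _ _ c fun x _ =>
      norm_avgW_le fun s hs => h _ (by simp [hs])).trans_eq ?_
    simp [Finset.card_univ, mul_comm]

section Word

variable {L : Type u} {R : Type v} [Monoid R]

@[simp] lemma wordA_nil (a : L → R) : wordA a [] = 1 := rfl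

@[simp] lemma wordA_cons (a : L → R) (x : L) (s : List L) :
    wordA a (x :: s) = a x * wordA a s := by simp [wordA]

@[simp] lemma wordA_append (a : L → R) (s t : List L) :
    wordA a (s ++ t) = wordA a s * wordA a t := by simp [wordA]

@[simp] lemma wordB_nil (b : L → R) : wordB b [] = 1 := rfl

@[simp] lemma wordB_cons (b : L → R) (x : L) (s : List L) :
    wordB b (x :: s) = wordB b s * b x := by simp [wordB]

@[simp] lemma wordB_append (b : L → R) (s t : List L) :
    wordB b (s ++ t) = wordB b t * wordB b s := by simp [wordB]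

lemma wordB_inv [StarMul R] (b : L → R) (bar : L → L) (hb : ∀ x, b (bar x) = star (b x))
    (s : List L) : wordB b (inv bar s) = star (wordB b s) := by
  induction s with
  | nil => simp [inv]
  | cons x s ih =>
    have : inv bar (x :: s) = inv bar s ++ [bar x] := by simp [inv]
    rw [this, wordB_append, ih]
    simp [hb]

end Word

/-! ### The alphabet of one test -/

variable {K : Type u} [NormedAddCommGroup K] [InnerProductSpace ℂ K] [CompleteSpace K]

attribute [local instance] Letters.fin Letters.grp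

/-- Letters: the kind (`X`, `Y`, one, group), a group element and an orientation. -/
abbrev Alph (E : Letters K) : Type u := (Fin 4 × E.ι) × Bool

variable (E : Letters K)

/-- The involution. -/
def bar (x : Alph E) : Alph E := ((x.1.1, x.1.2⁻¹), !x.2)

/-- The left value of a letter. -/
noncomputable def valA (x : Alph E) : K →L[ℂ] K := ![E.X, E.Y, 1, E.a x.1.2] x.1.1

/-- The right value of a letter. -/
noncomputable def valB (x : Alph E) : K →L[ℂ] K := ![E.X', E.Y', 1, E.b x.1.2] x.1.1

lemma bar_bar (x : Alph E) : bar E (bar E x) = x := by simp [bar]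

lemma bar_ne (x : Alph E) : bar E x ≠ x := fun h => by
  have := congrArg Prod.snd h
  simp [bar] at this

/-- Membership and unitarity of the values. -/
lemma valA_spec (x : Alph E) : valA E x ∈ E.A ∧ star (valA E x) * valA E x = 1 ∧
    valA E x * star (valA E x) = 1 ∧ valA E (bar E x) = star (valA E x) := by
  rcases x with ⟨⟨t, g⟩, o⟩
  obtain ⟨⟨hX, hX2⟩, -, ⟨hY, hY2⟩, -⟩ := E.symm
  fin_cases t
  · simp [valA, bar, E.memA.1, hX, hX2]
  · simp [valA, bar, E.memA.2.1, hY, hY2]
  · simp [valA, bar, one_mem]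
  · simp [valA, bar, E.memA.2.2, E.a_star, ← map_mul]

lemma valB_spec (x : Alph E) : valB E x ∈ E.B ∧ star (valB E x) * valB E x = 1 ∧
    valB E x * star (valB E x) = 1 ∧ valB E (bar E x) = star (valB E x) := by
  rcases x with ⟨⟨t, g⟩, o⟩
  obtain ⟨-, ⟨hX, hX2⟩, -, ⟨hY, hY2⟩⟩ := E.symm
  fin_cases t
  · simp [valB, bar, E.memB.1, hX, hX2]
  · simp [valB, bar, E.memB.2.1, hY, hY2]
  · simp [valB, bar, one_mem]
  · simp [valB, bar, E.memB.2.2, E.b_star, ← E.b_mul, E.b_one]

/-- The left value of a word. -/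
noncomputable abbrev wA (s : List (Alph E)) : K →L[ℂ] K := wordA (valA E) s

/-- The right value of a word. -/
noncomputable abbrev wB (s : List (Alph E)) : K →L[ℂ] K := wordB (valB E) s

lemma wA_spec (s : List (Alph E)) : wA E s ∈ E.A ∧ star (wA E s) * wA E s = 1 ∧
    wA E s * star (wA E s) = 1 := by
  induction s with
  | nil => simp [one_mem]
  | cons x s ih =>
    obtain ⟨h1, h2, h3, -⟩ := valA_spec E x
    refine ⟨by simpa using mul_mem h1 ih.1, ?_, ?_⟩
    · simp only [wA, wordA_cons, star_mul, mul_assoc]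
      rw [← mul_assoc (star (valA E x)), h2, one_mul, ih.2.1]
    · simp only [wA, wordA_cons, star_mul, mul_assoc]
      rw [← mul_assoc (wordA _ s), ih.2.2, one_mul, h3]

lemma wB_spec (s : List (Alph E)) : wB E s ∈ E.B ∧ star (wB E s) * wB E s = 1 ∧
    wB E s * star (wB E s) = 1 := by
  induction s with
  | nil => simp [one_mem]
  | cons x s ih =>
    obtain ⟨h1, h2, h3, -⟩ := valB_spec E x
    refine ⟨by simpa using mul_mem ih.1 h1, ?_, ?_⟩
    · simp only [wB, wordB_cons, star_mul, mul_assoc]
      rw [← mul_assoc (star (wordB _ s)), ih.2.1, one_mul, h2]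
    · simp only [wB, wordB_cons, star_mul, mul_assoc]
      rw [← mul_assoc (valB E x), h3, one_mul, ih.2.2]

/-- The mean over the letters of one kind. -/
noncomputable def avgT {F : Type v} [AddCommGroup F] [Module ℂ F] (t : Fin 4) (f : Alph E → F) :
    F :=
  (Fintype.card (E.ι × Bool) : ℂ)⁻¹ • ∑ p : E.ι × Bool, f ((t, p.1), p.2)

/-- The weight of the group positions. -/
def chi (x : Alph E) : ℂ := if x.1.1 = 3 then 1 else 0

/-- The weight of the left slot. -/
def rho (x : Alph E) : ℂ := if x.1.1 = 0 then 1 else if x.1.1 = 2 then -1 else 0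

/-- The weight of the right slot. -/
def sig (x : Alph E) : ℂ := if x.1.1 = 1 then 1 else if x.1.1 = 2 then -1 else 0

variable {F : Type v} [AddCommGroup F] [Module ℂ F]

lemma avgT_congr {t : Fin 4} {f g : Alph E → F} (h : ∀ x : Alph E, x.1.1 = t → f x = g x) :
    avgT E t f = avgT E t g := by
  simp only [avgT]
  congr 1
  exact Finset.sum_congr rfl fun p _ => h _ rfl

lemma avgW_one (f : List (Alph E) → F) :
    avgW 1 f = (4 : ℂ)⁻¹ • ∑ t : Fin 4, avgT E t fun x => f [x] := by
  simp only [avgW, avgT, ← Finset.smul_sum, smul_smul]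
  rw [Fintype.sum_prod_type, Fintype.sum_prod_type]
  simp only [Fintype.sum_prod_type, Fintype.card_prod, Fintype.card_fin, Nat.cast_mul, mul_inv]
  congr 1
  push_cast
  ring

lemma avgW_chi (f : List (Alph E) → F) (g : Alph E → F) (h : ∀ x, f [x] = chi E x • g x) :
    avgW 1 f = (4 : ℂ)⁻¹ • avgT E 3 g := by
  rw [avgW_one, Fin.sum_univ_four]
  have h0 : ∀ t : Fin 4, t ≠ 3 → avgT E t (fun x => f [x]) = 0 := fun t ht => by
    rw [avgT, Finset.sum_eq_zero, smul_zero]
    intro p _
    rw [h, chi, if_neg ht, zero_smul]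
  rw [h0 0 (by decide), h0 1 (by decide), h0 2 (by decide)]
  simp only [zero_add]
  congr 1
  exact avgT_congr E fun x hx => by rw [h, chi, if_pos hx, one_smul]

lemma avgW_rho (f : List (Alph E) → F) (g : Alph E → F) (h : ∀ x, f [x] = rho E x • g x) :
    avgW 1 f = (4 : ℂ)⁻¹ • (avgT E 0 g - avgT E 2 g) := by
  rw [avgW_one, Fin.sum_univ_four]
  congr 1
  simp only [avgT, h, rho, Fin.isValue, if_true]
  simp [sub_eq_add_neg]

lemma avgW_sig (f : List (Alph E) → F) (g : Alph E → F) (h : ∀ x, f [x] = sig E x • g x) :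
    avgW 1 f = (4 : ℂ)⁻¹ • (avgT E 1 g - avgT E 2 g) := by
  rw [avgW_one, Fin.sum_univ_four]
  congr 1
  simp only [avgT, h, sig, Fin.isValue, if_true]
  simp [sub_eq_add_neg]

lemma avgT_const (t : Fin 4) (c : F) : avgT E t (fun _ => c) = c := by
  simp only [avgT, Finset.sum_const, Finset.card_univ]
  rw [← Nat.cast_smul_eq_nsmul ℂ, smul_smul,
    inv_mul_cancel₀ (Nat.cast_ne_zero.2 Fintype.card_ne_zero), one_smul]

lemma avgT_map {F' : Type*} [AddCommGroup F'] [Module ℂ F'] (T : F →ₗ[ℂ] F') (t : Fin 4)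
    (f : Alph E → F) : T (avgT E t f) = avgT E t fun x => T (f x) := by
  simp only [avgT, map_smul, map_sum]

lemma avgT_add (t : Fin 4) (f g : Alph E → F) :
    avgT E t (fun x => f x + g x) = avgT E t f + avgT E t g := by
  simp only [avgT, Finset.sum_add_distrib, smul_add]

lemma avgT_sub (t : Fin 4) (f g : Alph E → F) :
    avgT E t (fun x => f x - g x) = avgT E t f - avgT E t g := by
  simp only [avgT, Finset.sum_sub_distrib, smul_sub]

lemma avgT_smul (t : Fin 4) (c : ℂ) (f : Alph E → F) :
    avgT E t (fun x => c • f x) = c • avgT E t f := by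
  simp only [avgT, ← Finset.smul_sum, smul_comm c]

/-- The group letters moved by `h` on the right. -/
def shiftR (h : E.ι) (x : Alph E) : Alph E := ((x.1.1, x.1.2 * h), x.2)

/-- The group letters moved by `h` on the left. -/
def shiftL (h : E.ι) (x : Alph E) : Alph E := ((x.1.1, h * x.1.2), x.2)

lemma avgT_shiftR (h : E.ι) (t : Fin 4) (f : Alph E → F) :
    avgT E t (fun x => f (shiftR E h x)) = avgT E t f := by
  simp only [avgT, shiftR]
  congr 1
  exact Fintype.sum_equiv ((Equiv.mulRight h).prodCongr (Equiv.refl Bool)) _ _ fun p => rfl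

lemma avgT_shiftL (h : E.ι) (t : Fin 4) (f : Alph E → F) :
    avgT E t (fun x => f (shiftL E h x)) = avgT E t f := by
  simp only [avgT, shiftL]
  congr 1
  exact Fintype.sum_equiv ((Equiv.mulLeft h).prodCongr (Equiv.refl Bool)) _ _ fun p => rfl

lemma val_shiftR (h : E.ι) {x : Alph E} (hx : x.1.1 = 3) :
    valA E (shiftR E h x) = valA E x * E.a h ∧ valB E (shiftR E h x) = E.b h * valB E x := by
  obtain ⟨⟨t, g⟩, o⟩ := x
  obtain rfl : t = 3 := hx
  simp [valA, valB, shiftR, map_mul, E.b_mul]

lemma val_shiftL (h : E.ι) {x : Alph E} (hx : x.1.1 = 3) :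
    valA E (shiftL E h x) = E.a h * valA E x ∧ valB E (shiftL E h x) = valB E x * E.b h := by
  obtain ⟨⟨t, g⟩, o⟩ := x
  obtain rfl : t = 3 := hx
  simp [valA, valB, shiftL, map_mul, E.b_mul]

lemma norm_avgT_le {F : Type v} [NormedAddCommGroup F] [NormedSpace ℂ F] {t : Fin 4}
    {f : Alph E → F} {c : ℝ} (h : ∀ x, ‖f x‖ ≤ c) : ‖avgT E t f‖ ≤ c := by
  simp only [avgT, norm_smul, norm_inv, Complex.norm_natCast]
  rw [inv_mul_le_iff₀ (by exact_mod_cast Fintype.card_pos)]
  refine (norm_sum_le _ _).trans ((Finset.sum_le_card_nsmul _ _ c fun p _ => h _).trans_eq ?_)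
  rw [Finset.card_univ, nsmul_eq_mul]

end Vale.Agent.P096.Full.Key
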